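import Vale.Agent.P157.H770.Univ

/-!
# Without almost everywhere continuity universality fails: a bounded Borel potential for which
Gaussian and `±1` patterns have different limits
-/

set_option linter.all false

open MeasureTheory ProbabilityTheory Filter Topology

namespace Vale.Agent.P157.H770

/-- the values taken by sums of signs divided by `√N` -/
def SS : Set ℝ := Set.range fun p : ℤ × ℕ => (p.1 : ℝ) / √(p.2 : ℝ)

theorem countable_SS : SS.Countable := Set.countable_range _

/-- the indicator of `SS` -/
noncomputable def f0 : ℝ → ℝ := SS.indicator fun _ => 1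

theorem measurable_f0 : Measurable f0 :=
  measurable_const.indicator countable_SS.measurableSet

theorem abs_f0_le (x : ℝ) : |f0 x| ≤ 1 := by
  unfold f0
  by_cases h : x ∈ SS
  · rw [Set.indicator_of_mem h]; simp
  · rw [Set.indicator_of_notMem h]; simp

/-- the symmetric law on `{-1, 1}` -/
noncomputable def signs : Measure ℝ := (1 / 2 : ENNReal) • (Measure.dirac 1 + Measure.dirac (-1))

instance : IsProbabilityMeasure signs := by unfold signs; infer_instance

theorem signs_ae : ∀ᵐ y ∂signs, y = 1 ∨ y = -1 := by
  unfold signs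
  refine Measure.ae_smul_measure ?_ _
  rw [ae_add_measure_iff]
  have hm : MeasurableSet {y : ℝ | y = 1 ∨ y = -1} :=
    (MeasurableSet.singleton 1).union (MeasurableSet.singleton (-1))
  constructor
  · rw [ae_dirac_iff hm]; simp
  · rw [ae_dirac_iff hm]; simp

theorem entries_signs_ae (M N : ℕ) : ∀ᵐ g ∂(entries signs M N), ∀ a i, g a i = 1 ∨ g a i = -1 := by
  unfold entries
  refine ae_all_iff.2 fun a => ae_all_iff.2 fun i => ?_
  have h1 : ∀ᵐ v ∂(Measure.pi fun _ : Fin N => signs), v i = 1 ∨ v i = -1 :=
    (Measure.tendsto_eval_ae_ae (μ := fun _ : Fin N => signs) (i := i)).eventually signs_ae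
  exact (Measure.tendsto_eval_ae_ae
    (μ := fun _ : Fin M => (Measure.pi fun _ : Fin N => signs)) (i := a)).eventually h1

theorem pressure_signs {M N : ℕ} (g : Fin M → Fin N → ℝ)
    (hg : ∀ a i, g a i = 1 ∨ g a i = -1) : pressure (cube N) f0 g = (M : ℝ) / N := by
  rw [pressure_eq, integral_cube]
  have h1 : ∀ σ : Fin N → Bool, HH f0 g (spin σ) = M := by
    intro σ
    unfold HH
    have h2 : ∀ a, f0 ((∑ i, g a i * spin σ i) / √(N : ℝ)) = 1 := by
      intro a
      have h3 : ∀ i, ∃ z : ℤ, g a i * spin σ i = z := by
        intro i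
        have h4 : spin σ i = 1 ∨ spin σ i = -1 := by
          unfold spin; split_ifs <;> simp
        rcases hg a i with h | h <;> rcases h4 with h' | h' <;> rw [h, h']
        · exact ⟨1, by norm_num⟩
        · exact ⟨-1, by norm_num⟩
        · exact ⟨-1, by norm_num⟩
        · exact ⟨1, by norm_num⟩
      choose z hz using h3
      have h5 : (∑ i, g a i * spin σ i) / √(N : ℝ) ∈ SS := by
        refine ⟨(∑ i, z i, N), ?_⟩
        simp only
        rw [Finset.sum_congr rfl fun i _ => hz i]
        push_cast
        rfl
      unfold f0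
      rw [Set.indicator_of_mem h5]
    rw [Finset.sum_congr rfl fun a _ => h2 a]
    simp
  rw [Finset.sum_congr rfl fun σ _ => by rw [h1 σ]]
  rw [Finset.sum_const, Finset.card_univ, Fintype.card_fun, Fintype.card_bool, Fintype.card_fin,
    nsmul_eq_mul, ← mul_assoc]
  have h6 : (1 / 2 : ℝ) ^ N * ((2 ^ N : ℕ) : ℝ) = 1 := by
    push_cast
    rw [← mul_pow]; norm_num
  rw [h6, one_mul, Real.log_exp]
  ring

theorem EP_signs (M N : ℕ) : EP (cube N) signs f0 M = (M : ℝ) / N := by
  unfold EP
  rw [integral_congr_ae (g := fun _ => (M : ℝ) / N)]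
  · simp
  · filter_upwards [entries_signs_ae M N] with g hg
    exact pressure_signs g hg

theorem signs_limit {α : ℝ} (hα : 0 ≤ α) : PressureLimit cube signs α f0 α := by
  refine pressureLimit_of cube (fun N => inferInstance) signs measurable_f0 abs_f0_le hα ?_
  simp only [EP_signs]
  exact (tendsto_nat_floor_mul_div_atTop hα).comp tendsto_natCast_atTop_atTop

theorem gauss_limit {α : ℝ} (hα : 0 ≤ α) : PressureLimit cube (gaussianReal 0 1) α f0 0 := by
  refine pressureLimit_of cube (fun N => inferInstance) _ measurable_f0 abs_f0_le hα ?_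
  have h0 : Lv.dL f0 (fun _ => 0) = 0 := by
    unfold Lv.dL
    have h1 : ∀ᵐ x ∂(gaussianReal 0 1), f0 x = 0 := by
      have h2 : (gaussianReal 0 1) SS = 0 := by
        haveI : NullSingletonClass (gaussianReal 0 1) := nullSingletonClass_gaussianReal (by norm_num)
        exact countable_SS.measure_zero _
      filter_upwards [measure_eq_zero_iff_ae_notMem.1 h2] with x hx
      exact Set.indicator_of_notMem hx _
    rw [integral_congr_ae (g := fun _ => (0 : ℝ))]
    · simp
    · filter_upwards [h1] with x hx
      simp [hx]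
  refine (tendsto_congr' ?_).2 tendsto_const_nhds
  filter_upwards [eventually_gt_atTop 0] with N hN
  have h3 := Lv.meanPressure_lipL cube hN (Lv.bor_cube_sq N) measurable_f0
    (measurable_const (a := (0 : ℝ))) abs_f0_le (fun x => by simp) hα
  rw [h0, mul_zero] at h3
  have h4 : meanPressure cube α (fun _ => 0) N = 0 := by
    unfold meanPressure
    have : ∀ g : Fin ⌊α * N⌋₊ → Fin N → ℝ, pressure (cube N) (fun _ => 0) g = 0 := by
      intro g
      rw [pressure_eq]
      have : ∀ x, HH (fun _ => 0) g x = 0 := fun x => by simp [HH]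
      simp [this]
    simp [this]
  rw [h4, sub_zero] at h3
  exact abs_nonpos_iff.1 h3

end Vale.Agent.P157.H770
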