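import Vale.Agent.P157.H770.Univ

/-!
# Universality for bounded almost everywhere continuous potentials (cube)
-/

set_option linter.all false

open MeasureTheory ProbabilityTheory Filter Topology

namespace Vale.Agent.P157.H770

theorem EP_mono {N : ℕ} (μ : Measure (Fin N → ℝ)) [IsProbabilityMeasure μ] (κ : Measure ℝ)
    [IsProbabilityMeasure κ] {f h : ℝ → ℝ} (hf : Measurable f) (hh : Measurable h) {B : ℝ}
    (hB : ∀ x, |f x| ≤ B) (hB' : ∀ x, |h x| ≤ B) (hle : ∀ x, f x ≤ h x) (M : ℕ) :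
    EP μ κ f M ≤ EP μ κ h M :=
  integral_mono (integrable_pressure μ κ hf hB) (integrable_pressure μ κ hh hB')
    fun g => pressure_mono μ hf hh hB hB' hle g

/-- the two one-sided smooth approximations -/
def Above (f : ℝ → ℝ) (B : ℝ) : Prop :=
  ∀ ε : ℝ, 0 < ε → ∃ (g g1 g2 g3 : ℝ → ℝ) (D : ℝ), C3b g g1 g2 g3 D ∧ (∀ x, |g x| ≤ B) ∧
    (∀ x, f x ≤ g x) ∧ ∫ x, (g x - f x) ∂(gaussianReal 0 1) ≤ ε

def Below (f : ℝ → ℝ) (B : ℝ) : Prop :=
  ∀ ε : ℝ, 0 < ε → ∃ (g g1 g2 g3 : ℝ → ℝ) (D : ℝ), C3b g g1 g2 g3 D ∧ (∀ x, |g x| ≤ B) ∧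
    (∀ x, g x ≤ f x) ∧ ∫ x, (f x - g x) ∂(gaussianReal 0 1) ≤ ε

theorem univ_ae {f : ℝ → ℝ} (hf : Measurable f) {B : ℝ} (hB : ∀ x, |f x| ≤ B)
    (hup : Above f B) (hlo : Below f B) (ν : Measure ℝ) [IsProbabilityMeasure ν]
    (iν : Integrable (fun t => t ^ 2) ν) (m1 : ∫ t, t ∂ν = 0) (m2 : ∫ t, t ^ 2 ∂ν = 1)
    {α : ℝ} (hα : 0 ≤ α) :
    Tendsto (fun N : ℕ => EP (cube N) ν f ⌊α * N⌋₊ -
      EP (cube N) (gaussianReal 0 1) f ⌊α * N⌋₊) atTop (𝓝 0) := by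
  rw [Metric.tendsto_atTop]
  intro ε hε
  have hE : 0 < Real.exp (2 * B) := Real.exp_pos _
  set η : ℝ := ε / (4 * (α * Real.exp (2 * B) + 1)) with hη
  have hη0 : 0 < η := by rw [hη]; positivity
  have hη1 : α * Real.exp (2 * B) * η ≤ ε / 4 := by
    have h1 : (α * Real.exp (2 * B) + 1) * η = ε / 4 := by
      rw [hη]; field_simp
    nlinarith [hη0.le]
  obtain ⟨p, p1, p2, p3, Dp, hp, hpB, hpf, hpi⟩ := hup η hη0
  obtain ⟨q, q1, q2, q3, Dq, hq, hqB, hqf, hqi⟩ := hlo η hη0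
  have hpm : Measurable p :=
    (continuous_iff_continuousAt.2 fun x => (hp.d1 x).continuousAt).measurable
  have hqm : Measurable q :=
    (continuous_iff_continuousAt.2 fun x => (hq.d1 x).continuousAt).measurable
  have dp : Lv.dL f p ≤ η := by
    unfold Lv.dL
    refine le_trans (le_of_eq (integral_congr_ae (ae_of_all _ fun x => ?_))) hpi
    simp only
    rw [abs_sub_comm, abs_of_nonneg (sub_nonneg.2 (hpf x))]
  have dq : Lv.dL f q ≤ η := by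
    unfold Lv.dL
    refine le_trans (le_of_eq (integral_congr_ae (ae_of_all _ fun x => ?_))) hqi
    simp only
    rw [abs_of_nonneg (sub_nonneg.2 (hqf x))]
  have hm1 : ∫ t, t ∂ν = ∫ t, t ∂(gaussianReal 0 1) := by rw [m1, gauss_mean]
  have hm2 : ∫ t, t ^ 2 ∂ν = ∫ t, t ^ 2 ∂(gaussianReal 0 1) := by rw [m2, gauss_var]
  have up := univ_smooth hp hpB ν (gaussianReal 0 1) iν gauss_sq hm1 hm2 hα
  have lo := univ_smooth hq hqB ν (gaussianReal 0 1) iν gauss_sq hm1 hm2 hα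
  have up' := (Metric.tendsto_atTop.1 up) (ε / 4) (by positivity)
  have lo' := (Metric.tendsto_atTop.1 lo) (ε / 4) (by positivity)
  obtain ⟨N1, hN1⟩ := up'
  obtain ⟨N2, hN2⟩ := lo'
  refine ⟨max (max N1 N2) 1, fun N hN => ?_⟩
  have hNp : 0 < N := lt_of_lt_of_le one_pos ((le_max_right _ _).trans hN)
  have a1 := hN1 N ((le_max_left _ _).trans ((le_max_left _ _).trans hN))
  have a2 := hN2 N ((le_max_right _ _).trans ((le_max_left _ _).trans hN))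
  rw [Real.dist_eq, sub_zero] at a1 a2 ⊢
  have b1 : |EP (cube N) (gaussianReal 0 1) f ⌊α * N⌋₊ -
      EP (cube N) (gaussianReal 0 1) p ⌊α * N⌋₊| ≤ α * Real.exp (2 * B) * Lv.dL f p :=
    Lv.meanPressure_lipL cube hNp (Lv.bor_cube_sq N) hf hpm hB hpB hα
  have b2 : |EP (cube N) (gaussianReal 0 1) f ⌊α * N⌋₊ -
      EP (cube N) (gaussianReal 0 1) q ⌊α * N⌋₊| ≤ α * Real.exp (2 * B) * Lv.dL f q :=
    Lv.meanPressure_lipL cube hNp (Lv.bor_cube_sq N) hf hqm hB hqB hα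
  have c1 : α * Real.exp (2 * B) * Lv.dL f p ≤ ε / 4 :=
    (mul_le_mul_of_nonneg_left dp (by positivity)).trans hη1
  have c2 : α * Real.exp (2 * B) * Lv.dL f q ≤ ε / 4 :=
    (mul_le_mul_of_nonneg_left dq (by positivity)).trans hη1
  have e1 := EP_mono (cube N) ν hf hpm hB hpB hpf ⌊α * N⌋₊
  have e2 := EP_mono (cube N) ν hqm hf hqB hB hqf ⌊α * N⌋₊
  have a1' := abs_lt.1 a1
  have a2' := abs_lt.1 a2
  have b1' := abs_le.1 b1
  have b2' := abs_le.1 b2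
  rw [abs_lt]
  constructor
  · linarith [a2'.1, b2'.2]
  · linarith [a1'.2, b1'.1]

end Vale.Agent.P157.H770
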