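import Vale.Agent.P157.H770.Sand
import Vale.Agent.P157.H770.Sandwich
import Vale.Agent.P157.H770.Lat
import Vale.Agent.P157.Bdl.B16
import Vale.Agent.P157.Bdl.B17

/-!
# The universal perceptron: assembly
-/

set_option linter.all false

open MeasureTheory ProbabilityTheory Filter Topology

namespace Vale.Agent.P157.H770

open Par Sph

theorem isProb_usphere (N : ℕ) : IsProbabilityMeasure (usphere N) := by
  unfold usphere
  refine Measure.isProbabilityMeasure_map ?_
  exact (measurable_pi_iff.2 fun i => by fun_prop).aemeasurable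

theorem cube_part {f : ℝ → ℝ} (hf : Measurable f) {B : ℝ} (hB : ∀ x, |f x| ≤ B) {α : ℝ}
    (hα : 0 < α) :
    ∃ L : ℝ, Tendsto (meanPressure cube α f) atTop (𝓝 L) ∧
      IsGLB {y | ∃ (k : ℕ) (m q : ℕ → ℝ), Exponents k m ∧ Path k q ∧ q k < 1 ∧
        IsLUB {y | ∃ r, Path k r ∧ y = parisi α f k m q r} y} L ∧
      PressureLimit cube (gaussianReal 0 1) α f L ∧
      ((∀ᵐ x ∂(volume : Measure ℝ), ContinuousAt f x) → ∀ ν : Measure ℝ, IsProbabilityMeasure ν →
        Integrable (fun t => t ^ 2) ν → ∫ t, t ∂ν = 0 → ∫ t, t ^ 2 ∂ν = 1 →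
        PressureLimit cube ν α f L) := by
  obtain ⟨L, hL, hG⟩ := parisi_formula_all hf hB hα
  have hL' : Tendsto (fun N : ℕ => EP (cube N) (gaussianReal 0 1) f ⌊α * N⌋₊) atTop (𝓝 L) := hL
  refine ⟨L, hL, hG, pressureLimit_of cube (fun N => inferInstance) _ hf hB hα.le hL', ?_⟩
  intro hc ν hν iν m1 m2
  refine pressureLimit_of cube (fun N => inferInstance) ν hf hB hα.le ?_
  have h := (univ_ae hf hB (fun ε hε => exists_above hf hB hc hε)
    (fun ε hε => exists_below hf hB hc hε) ν iν m1 m2 hα.le).add hL'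
  simpa using h

theorem sphere_part {f : ℝ → ℝ} (hf : Measurable f) {B : ℝ} (hB : ∀ x, |f x| ≤ B) {α : ℝ}
    (hα : 0 < α) :
    ∃ L : ℝ, Tendsto (meanPressure usphere α f) atTop (𝓝 L) ∧
      IsGLB {y | ∃ (k : ℕ) (m q : ℕ → ℝ), Exponents k m ∧ Path k q ∧ q k < 1 ∧
        y = α * patternPart f k m q + csPart k m q} L ∧
      PressureLimit usphere (gaussianReal 0 1) α f L := by
  obtain ⟨L, hL, hG⟩ := usphere_formula hf hB hα
  exact ⟨L, hL, hG, pressureLimit_of usphere isProb_usphere _ hf hB hα.le hL⟩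

end Vale.Agent.P157.H770
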