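import Vale.Agent.P157.H770.Defs
import Vale.Agent.P157.McDiarmid

/-!
# Bounded differences, exponential concentration, almost sure convergence of the pressure
-/

set_option linter.all false

open MeasureTheory ProbabilityTheory Filter Topology

namespace Vale.Agent.P157.H770

variable {M N : ℕ}

/-- the exponent -/
noncomputable def HH (f : ℝ → ℝ) (g : Fin M → Fin N → ℝ) (x : Fin N → ℝ) : ℝ :=
  ∑ a, f ((∑ i, g a i * x i) / √(N : ℝ))

theorem pressure_eq (μ : Measure (Fin N → ℝ)) (f : ℝ → ℝ) (g : Fin M → Fin N → ℝ) :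
    pressure μ f g = 1 / N * Real.log (∫ x, Real.exp (HH f g x) ∂μ) := rfl

theorem measurable_HH2 {f : ℝ → ℝ} (hf : Measurable f) :
    Measurable fun p : (Fin M → Fin N → ℝ) × (Fin N → ℝ) => HH f p.1 p.2 := by
  unfold HH
  exact Finset.measurable_sum _ fun a _ => hf.comp (by fun_prop)

theorem measurable_HH {f : ℝ → ℝ} (hf : Measurable f) (g : Fin M → Fin N → ℝ) :
    Measurable (HH f g) := by
  unfold HH
  exact Finset.measurable_sum _ fun a _ => hf.comp (by fun_prop)

theorem abs_HH_le {f : ℝ → ℝ} {B : ℝ} (hB : ∀ x, |f x| ≤ B) (g : Fin M → Fin N → ℝ)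
    (x : Fin N → ℝ) : |HH f g x| ≤ M * B := by
  refine (Finset.abs_sum_le_sum_abs _ _).trans ?_
  refine (Finset.sum_le_sum fun a _ => hB _).trans ?_
  simp

theorem integrable_exp_HH (μ : Measure (Fin N → ℝ)) [IsProbabilityMeasure μ] {f : ℝ → ℝ}
    (hf : Measurable f) {B : ℝ} (hB : ∀ x, |f x| ≤ B) (g : Fin M → Fin N → ℝ) :
    Integrable (fun x => Real.exp (HH f g x)) μ :=
  (integrable_const (Real.exp (M * B))).mono' (measurable_HH hf g).exp.aestronglyMeasurable
    (ae_of_all _ fun x => by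
      rw [Real.norm_eq_abs, abs_of_pos (Real.exp_pos _)]
      exact Real.exp_le_exp.2 (abs_le.1 (abs_HH_le hB g x)).2)

theorem integral_exp_HH_pos (μ : Measure (Fin N → ℝ)) [IsProbabilityMeasure μ] {f : ℝ → ℝ}
    (hf : Measurable f) {B : ℝ} (hB : ∀ x, |f x| ≤ B) (g : Fin M → Fin N → ℝ) :
    0 < ∫ x, Real.exp (HH f g x) ∂μ :=
  integral_exp_pos (integrable_exp_HH μ hf hB g)

/-- comparison of two exponents, possibly of two arrays of different sizes -/
theorem pressure_sub_le {M' : ℕ} (μ : Measure (Fin N → ℝ)) [IsProbabilityMeasure μ]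
    {f h : ℝ → ℝ} (hf : Measurable f) (hh : Measurable h) {B : ℝ} (hB : ∀ x, |f x| ≤ B)
    (hB' : ∀ x, |h x| ≤ B) (g : Fin M → Fin N → ℝ) (g' : Fin M' → Fin N → ℝ) {C : ℝ}
    (hC : ∀ x, HH f g x ≤ HH h g' x + C) :
    pressure μ f g ≤ pressure μ h g' + C / N := by
  rw [pressure_eq, pressure_eq]
  have h1 : ∫ x, Real.exp (HH f g x) ∂μ ≤ Real.exp C * ∫ x, Real.exp (HH h g' x) ∂μ := by
    rw [← integral_const_mul]
    refine integral_mono (integrable_exp_HH μ hf hB g)
      ((integrable_exp_HH μ hh hB' g').const_mul _) fun x => ?_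
    simp only
    rw [← Real.exp_add]
    exact Real.exp_le_exp.2 (by linarith [hC x])
  have h2 := Real.log_le_log (integral_exp_HH_pos μ hf hB g) h1
  rw [Real.log_mul (Real.exp_pos _).ne' (integral_exp_HH_pos μ hh hB' g').ne', Real.log_exp] at h2
  have h3 := mul_le_mul_of_nonneg_left h2 (show (0 : ℝ) ≤ 1 / N by positivity)
  calc _ ≤ _ := h3
    _ = _ := by ring

theorem pressure_mono (μ : Measure (Fin N → ℝ)) [IsProbabilityMeasure μ]
    {f h : ℝ → ℝ} (hf : Measurable f) (hh : Measurable h) {B : ℝ} (hB : ∀ x, |f x| ≤ B)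
    (hB' : ∀ x, |h x| ≤ B) (hle : ∀ x, f x ≤ h x) (g : Fin M → Fin N → ℝ) :
    pressure μ f g ≤ pressure μ h g := by
  have := pressure_sub_le μ hf hh hB hB' g g (C := 0) fun x => by
    rw [add_zero]; exact Finset.sum_le_sum fun a _ => hle _
  simpa using this

theorem abs_pressure_sub_le {M' : ℕ} (μ : Measure (Fin N → ℝ)) [IsProbabilityMeasure μ]
    {f : ℝ → ℝ} (hf : Measurable f) {B : ℝ} (hB : ∀ x, |f x| ≤ B)
    (g : Fin M → Fin N → ℝ) (g' : Fin M' → Fin N → ℝ) {C : ℝ}
    (hC : ∀ x, |HH f g x - HH f g' x| ≤ C) :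
    |pressure μ f g - pressure μ f g'| ≤ C / N := by
  have h1 := pressure_sub_le μ hf hf hB hB g g' (C := C) fun x => by
    have := (abs_le.1 (hC x)).2; linarith
  have h2 := pressure_sub_le μ hf hf hB hB g' g (C := C) fun x => by
    have := (abs_le.1 (hC x)).1; linarith
  rw [abs_le]; constructor <;> linarith

/-- changing one pattern -/
theorem pressure_update (μ : Measure (Fin N → ℝ)) [IsProbabilityMeasure μ]
    {f : ℝ → ℝ} (hf : Measurable f) {B : ℝ} (hB : ∀ x, |f x| ≤ B)
    (g : Fin M → Fin N → ℝ) (a : Fin M) (r : Fin N → ℝ) :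
    |pressure μ f (Function.update g a r) - pressure μ f g| ≤ 2 * B / N := by
  refine abs_pressure_sub_le μ hf hB _ _ fun x => ?_
  have e : HH f (Function.update g a r) x - HH f g x =
      f ((∑ i, r i * x i) / √(N : ℝ)) - f ((∑ i, g a i * x i) / √(N : ℝ)) := by
    unfold HH
    rw [← Finset.sum_sub_distrib, Finset.sum_eq_single a]
    · simp
    · intro b _ hb
      rw [Function.update_of_ne hb, sub_self]
    · intro h; exact absurd (Finset.mem_univ a) h
  rw [e]
  calc _ ≤ _ := abs_sub _ _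
    _ ≤ B + B := add_le_add (hB _) (hB _)
    _ = 2 * B := by ring

/-- one more pattern -/
theorem pressure_cons (μ : Measure (Fin N → ℝ)) [IsProbabilityMeasure μ]
    {f : ℝ → ℝ} (hf : Measurable f) {B : ℝ} (hB : ∀ x, |f x| ≤ B)
    (g : Fin M → Fin N → ℝ) (r : Fin N → ℝ) :
    |pressure μ f (Fin.cons r g : Fin (M + 1) → Fin N → ℝ) - pressure μ f g| ≤ B / N := by
  refine abs_pressure_sub_le μ hf hB _ _ fun x => ?_
  have e : HH f (Fin.cons r g : Fin (M + 1) → Fin N → ℝ) x - HH f g x =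
      f ((∑ i, r i * x i) / √(N : ℝ)) := by
    unfold HH
    rw [Fin.sum_univ_succ]
    simp
  rw [e]; exact hB _

theorem abs_pressure_le' (μ : Measure (Fin N → ℝ)) [IsProbabilityMeasure μ]
    {f : ℝ → ℝ} (hf : Measurable f) {B : ℝ} (hB : ∀ x, |f x| ≤ B) (g : Fin M → Fin N → ℝ) :
    |pressure μ f g| ≤ M * B / N := by
  have h := abs_pressure_sub_le μ hf hB g (Fin.elim0 : Fin 0 → Fin N → ℝ) (C := M * B) fun x => by
    have : HH f (Fin.elim0 : Fin 0 → Fin N → ℝ) x = 0 := by simp [HH]
    rw [this, sub_zero]; exact abs_HH_le hB g x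
  have e : pressure μ f (Fin.elim0 : Fin 0 → Fin N → ℝ) = 0 := by
    rw [pressure_eq]
    have : ∀ x, HH f (Fin.elim0 : Fin 0 → Fin N → ℝ) x = 0 := fun x => by simp [HH]
    simp [this]
  rwa [e, sub_zero] at h

theorem measurable_pressure (μ : Measure (Fin N → ℝ)) [IsProbabilityMeasure μ]
    {f : ℝ → ℝ} (hf : Measurable f) :
    Measurable fun g : Fin M → Fin N → ℝ => pressure μ f g := by
  have h1 : Measurable fun g : Fin M → Fin N → ℝ => ∫ x, Real.exp (HH f g x) ∂μ :=
    ((measurable_HH2 hf).exp.stronglyMeasurable.integral_prod_right' (ν := μ)).measurable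
  exact (h1.log).const_mul _

instance (κ : Measure ℝ) [IsProbabilityMeasure κ] (M N : ℕ) :
    IsProbabilityMeasure (entries κ M N) := by unfold entries; infer_instance

/-- mean pressure -/
noncomputable def EP (μ : Measure (Fin N → ℝ)) (κ : Measure ℝ) (f : ℝ → ℝ) (M : ℕ) : ℝ :=
  ∫ g, pressure μ f g ∂(entries κ M N)

theorem integrable_pressure (μ : Measure (Fin N → ℝ)) [IsProbabilityMeasure μ] (κ : Measure ℝ)
    [IsProbabilityMeasure κ] {f : ℝ → ℝ} (hf : Measurable f) {B : ℝ} (hB : ∀ x, |f x| ≤ B) :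
    Integrable (fun g : Fin M → Fin N → ℝ => pressure μ f g) (entries κ M N) :=
  Integrable.of_bound (measurable_pressure μ hf).aestronglyMeasurable (M * B / N)
    (ae_of_all _ fun g => by rw [Real.norm_eq_abs]; exact abs_pressure_le' μ hf hB g)

theorem EP_succ (μ : Measure (Fin N → ℝ)) [IsProbabilityMeasure μ] (κ : Measure ℝ)
    [IsProbabilityMeasure κ] {f : ℝ → ℝ} (hf : Measurable f) {B : ℝ} (hB : ∀ x, |f x| ≤ B)
    (M : ℕ) : |EP μ κ f (M + 1) - EP μ κ f M| ≤ B / N := by
  set ρ : Measure (Fin N → ℝ) := Measure.pi fun _ => κ with hρ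
  have e1 : EP μ κ f (M + 1) = ∫ z : (Fin N → ℝ) × (Fin M → Fin N → ℝ),
      pressure μ f (Fin.cons z.1 z.2 : Fin (M + 1) → Fin N → ℝ)
        ∂(ρ.prod (Measure.pi fun _ : Fin M => ρ)) :=
    integral_pi_cons ρ M fun g => pressure μ f g
  have e2 : EP μ κ f M = ∫ z : (Fin N → ℝ) × (Fin M → Fin N → ℝ),
      pressure μ f z.2 ∂(ρ.prod (Measure.pi fun _ : Fin M => ρ)) := by
    have h := integral_fun_snd (μ := ρ) (ν := Measure.pi fun _ : Fin M => ρ)
      (fun g : Fin M → Fin N → ℝ => pressure μ f g)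
    rw [h]
    simp [EP, entries, hρ]
  have hc : Measurable fun z : (Fin N → ℝ) × (Fin M → Fin N → ℝ) =>
      (Fin.cons z.1 z.2 : Fin (M + 1) → Fin N → ℝ) := by
    have h := (MeasurableEquiv.piFinSuccAbove (fun _ : Fin (M + 1) => Fin N → ℝ) 0).symm.measurable
    convert h using 1
    funext z
    simp only [MeasurableEquiv.piFinSuccAbove_symm_apply, Fin.insertNthEquiv]
    simp
  have i1 : Integrable (fun z : (Fin N → ℝ) × (Fin M → Fin N → ℝ) =>
      pressure μ f (Fin.cons z.1 z.2 : Fin (M + 1) → Fin N → ℝ))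
        (ρ.prod (Measure.pi fun _ : Fin M => ρ)) :=
    Integrable.of_bound ((measurable_pressure μ hf).comp hc).aestronglyMeasurable
      ((M + 1 : ℕ) * B / N)
      (ae_of_all _ fun z => by rw [Real.norm_eq_abs]; exact abs_pressure_le' μ hf hB _)
  have i2 : Integrable (fun z : (Fin N → ℝ) × (Fin M → Fin N → ℝ) => pressure μ f z.2)
        (ρ.prod (Measure.pi fun _ : Fin M => ρ)) :=
    Integrable.of_bound ((measurable_pressure μ hf).comp measurable_snd).aestronglyMeasurable
      (M * B / N)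
      (ae_of_all _ fun z => by rw [Real.norm_eq_abs]; exact abs_pressure_le' μ hf hB _)
  rw [e1, e2, ← integral_sub i1 i2]
  have := norm_integral_le_of_norm_le_const (μ := ρ.prod (Measure.pi fun _ : Fin M => ρ))
    (f := fun z : (Fin N → ℝ) × (Fin M → Fin N → ℝ) =>
      pressure μ f (Fin.cons z.1 z.2 : Fin (M + 1) → Fin N → ℝ) - pressure μ f z.2) (C := B / N)
    (ae_of_all _ fun z => by rw [Real.norm_eq_abs]; exact pressure_cons μ hf hB _ _)
  simpa [Real.norm_eq_abs] using this

theorem EP_sub_le (μ : Measure (Fin N → ℝ)) [IsProbabilityMeasure μ] (κ : Measure ℝ)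
    [IsProbabilityMeasure κ] {f : ℝ → ℝ} (hf : Measurable f) {B : ℝ} (hB : ∀ x, |f x| ≤ B)
    (M M' : ℕ) : |EP μ κ f M' - EP μ κ f M| ≤ |(M' : ℝ) - M| * (B / N) := by
  have key : ∀ M k : ℕ, |EP μ κ f (M + k) - EP μ κ f M| ≤ k * (B / N) := by
    intro M k
    induction k with
    | zero => simp
    | succ k ih =>
      calc |EP μ κ f (M + (k + 1)) - EP μ κ f M|
          ≤ |EP μ κ f (M + k + 1) - EP μ κ f (M + k)| + |EP μ κ f (M + k) - EP μ κ f M| :=
            abs_sub_le _ _ _
        _ ≤ B / N + k * (B / N) := add_le_add (EP_succ μ κ hf hB _) ih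
        _ = (k + 1 : ℕ) * (B / N) := by push_cast; ring
  rcases le_total M M' with h | h
  · obtain ⟨k, rfl⟩ := Nat.exists_eq_add_of_le h
    refine (key M k).trans (le_of_eq ?_)
    push_cast
    rw [add_sub_cancel_left, abs_of_nonneg (Nat.cast_nonneg k)]
  · obtain ⟨k, rfl⟩ := Nat.exists_eq_add_of_le h
    rw [abs_sub_comm]
    refine (key M' k).trans (le_of_eq ?_)
    push_cast
    rw [abs_sub_comm, add_sub_cancel_left, abs_of_nonneg (Nat.cast_nonneg k)]

/-- **exponential concentration** -/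
theorem concentration (μ : Measure (Fin N → ℝ)) [IsProbabilityMeasure μ] (κ : Measure ℝ)
    [IsProbabilityMeasure κ] {f : ℝ → ℝ} (hf : Measurable f) {B : ℝ} (hB : ∀ x, |f x| ≤ B)
    (M : ℕ) {t : ℝ} (ht : 0 ≤ t) :
    (entries κ M N).real {g | t ≤ |pressure μ f g - EP μ κ f M|} ≤
      2 * Real.exp (-(t ^ 2 * N ^ 2 / (8 * M * B ^ 2))) := by
  have hB0 : 0 ≤ B := (abs_nonneg _).trans (hB 0)
  set ρ : Measure (Fin N → ℝ) := Measure.pi fun _ => κ with hρ
  have hcd : 0 ≤ 2 * B / (N : ℝ) := by positivity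
  set c := 2 * B / (N : ℝ) with hc
  -- Chernoff
  have chern : ∀ F : (Fin M → Fin N → ℝ) → ℝ, Measurable F → (∀ x, |F x| ≤ M * B / N) →
      (∀ x a e, |F (Function.update x a e) - F x| ≤ c) →
      (entries κ M N).real {g | t ≤ F g - ∫ y, F y ∂(entries κ M N)} ≤
        Real.exp (-(t ^ 2 * N ^ 2 / (8 * M * B ^ 2))) := by
    intro F hF hFB hFc
    set s := t / (M * c ^ 2) with hs
    have hs0 : 0 ≤ s := by positivity
    have hm := mgf_bounded_differences ρ M F hF hFB hcd hFc s
    have hexpm : Measurable fun x => Real.exp (s * (F x - ∫ y, F y ∂(entries κ M N))) :=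
      ((hF.sub_const _).const_mul s).exp
    have hbd : |∫ y, F y ∂(entries κ M N)| ≤ M * B / N := by
      have := norm_integral_le_of_norm_le_const (μ := entries κ M N) (f := F) (C := M * B / N)
        (ae_of_all _ fun x => by rw [Real.norm_eq_abs]; exact hFB x)
      simpa [Real.norm_eq_abs] using this
    have hint : Integrable (fun x => Real.exp (s * (F x - ∫ y, F y ∂(entries κ M N))))
        (entries κ M N) := by
      refine Integrable.of_bound hexpm.aestronglyMeasurable
        (Real.exp (s * (M * B / N + M * B / N))) (ae_of_all _ fun x => ?_)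
      rw [Real.norm_eq_abs, abs_of_pos (Real.exp_pos _)]
      refine Real.exp_le_exp.2 (mul_le_mul_of_nonneg_left ?_ hs0)
      have h1 := (abs_le.1 (hFB x)).2
      have h2 := (abs_le.1 hbd).1
      linarith
    have hmark := mul_meas_ge_le_integral_of_nonneg (μ := entries κ M N)
      (f := fun x => Real.exp (s * (F x - ∫ y, F y ∂(entries κ M N))))
      (ae_of_all _ fun x => (Real.exp_pos _).le) hint (Real.exp (s * t))
    have hsub : {g | t ≤ F g - ∫ y, F y ∂(entries κ M N)} ⊆
        {x | Real.exp (s * t) ≤ Real.exp (s * (F x - ∫ y, F y ∂(entries κ M N)))} := by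
      intro g hg
      exact Real.exp_le_exp.2 (mul_le_mul_of_nonneg_left hg hs0)
    have h3 : (entries κ M N).real {g | t ≤ F g - ∫ y, F y ∂(entries κ M N)} ≤
        (entries κ M N).real
          {x | Real.exp (s * t) ≤ Real.exp (s * (F x - ∫ y, F y ∂(entries κ M N)))} :=
      measureReal_mono hsub
    have h4 : Real.exp (s * t) * (entries κ M N).real {g | t ≤ F g - ∫ y, F y ∂(entries κ M N)} ≤
        Real.exp (M * c ^ 2 * s ^ 2 / 2) :=
      (mul_le_mul_of_nonneg_left h3 (Real.exp_pos _).le).trans (hmark.trans hm)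
    have h5 : (entries κ M N).real {g | t ≤ F g - ∫ y, F y ∂(entries κ M N)} ≤
        Real.exp (M * c ^ 2 * s ^ 2 / 2 - s * t) := by
      rw [Real.exp_sub, le_div_iff₀ (Real.exp_pos _), mul_comm]
      exact h4
    refine h5.trans (Real.exp_le_exp.2 (le_of_eq ?_))
    by_cases h0 : (M : ℝ) * c ^ 2 = 0
    · have e1 : (8 : ℝ) * M * B ^ 2 = 0 ∨ (N : ℝ) = 0 := by
        rcases mul_eq_zero.1 h0 with h | h
        · left; rw [h]; ring
        · rw [hc] at h
          have h' := pow_eq_zero_iff (two_ne_zero) |>.1 h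
          rcases div_eq_zero_iff.1 h' with h'' | h''
          · left
            have : B = 0 := by linarith
            rw [this]; ring
          · right; exact h''
      rw [hs, h0]
      rcases e1 with e1 | e1
      · rw [e1]; simp
      · rw [e1]; simp
    · have hM : (M : ℝ) ≠ 0 := fun h => h0 (by rw [h, zero_mul])
      have hcne : c ≠ 0 := fun h => h0 (by rw [h]; ring)
      have hN0 : (N : ℝ) ≠ 0 := fun h => hcne (by rw [hc, h, div_zero])
      have hBne : B ≠ 0 := fun h => hcne (by rw [hc, h]; ring)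
      rw [hs, hc]
      field_simp
      ring
  have hmeasP := measurable_pressure (M := M) μ hf
  have h1 := chern (fun g => pressure μ f g) hmeasP (abs_pressure_le' μ hf hB)
    (fun g a r => pressure_update μ hf hB g a r)
  have h2 := chern (fun g => -pressure μ f g) hmeasP.neg
    (fun g => by rw [abs_neg]; exact abs_pressure_le' μ hf hB g)
    (fun g a r => by
      rw [← neg_add', abs_neg, ← sub_eq_add_neg]
      exact pressure_update μ hf hB g a r)
  have hsub : {g : Fin M → Fin N → ℝ | t ≤ |pressure μ f g - EP μ κ f M|} ⊆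
      {g : Fin M → Fin N → ℝ | t ≤ pressure μ f g - ∫ y, pressure μ f y ∂(entries κ M N)} ∪
      {g : Fin M → Fin N → ℝ |
        t ≤ -pressure μ f g - ∫ y, -pressure μ f y ∂(entries κ M N)} := by
    intro g hg
    simp only [Set.mem_setOf_eq] at hg
    rcases le_abs.1 hg with h | h
    · exact Or.inl h
    · right
      simp only [Set.mem_setOf_eq]
      rw [integral_neg]
      have : EP μ κ f M = ∫ y, pressure μ f y ∂(entries κ M N) := rfl
      rw [← this]
      linarith
  calc _ ≤ _ := measureReal_mono hsub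
    _ ≤ _ := measureReal_union_le _ _
    _ ≤ _ := add_le_add h1 h2
    _ = _ := by ring

/-- from the convergence of the means at `⌊α N⌋` to `PressureLimit` -/
theorem pressureLimit_of (μ : (N : ℕ) → Measure (Fin N → ℝ)) (hμ : ∀ N, IsProbabilityMeasure (μ N))
    (κ : Measure ℝ) [IsProbabilityMeasure κ] {f : ℝ → ℝ} (hf : Measurable f) {B : ℝ}
    (hB : ∀ x, |f x| ≤ B) {α : ℝ} (hα : 0 ≤ α) {L : ℝ}
    (hL : Tendsto (fun N : ℕ => EP (μ N) κ f ⌊α * N⌋₊) atTop (𝓝 L)) :
    PressureLimit μ κ α f L := by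
  intro M hM
  have hB1 : 0 < B + 1 := by
    have := (abs_nonneg _).trans (hB 0); linarith
  have hB' : ∀ x, |f x| ≤ B + 1 := fun x => (hB x).trans (by linarith)
  -- the means
  have hfl : Tendsto (fun N : ℕ => ((⌊α * N⌋₊ : ℕ) : ℝ) / N) atTop (𝓝 α) :=
    (tendsto_nat_floor_mul_div_atTop hα).comp tendsto_natCast_atTop_atTop
  have hdiff : Tendsto (fun N : ℕ => |((M N : ℕ) : ℝ) / N - ((⌊α * N⌋₊ : ℕ) : ℝ) / N| * B) atTop
      (𝓝 0) := by
    have h1 := ((hM.sub hfl).abs).mul_const B
    simpa using h1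
  have hmean : Tendsto (fun N => EP (μ N) κ f (M N)) atTop (𝓝 L) := by
    have h1 : Tendsto (fun N => EP (μ N) κ f (M N) - EP (μ N) κ f ⌊α * N⌋₊) atTop (𝓝 0) := by
      refine squeeze_zero_norm' ?_ hdiff
      filter_upwards with N
      rw [Real.norm_eq_abs]
      haveI := hμ N
      refine (EP_sub_le (μ N) κ hf hB _ _).trans (le_of_eq ?_)
      rw [← sub_div, abs_div, abs_of_nonneg (Nat.cast_nonneg N : (0 : ℝ) ≤ N)]
      ring
    have h2 := h1.add hL
    simpa using h2
  refine ⟨hmean, ?_⟩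
  intro Ω _ P _ G hG hGl
  -- Borel-Cantelli
  have hle : ∀ᶠ N : ℕ in atTop, ((M N : ℕ) : ℝ) ≤ (α + 1) * N := by
    have h1 := hM.eventually (gt_mem_nhds (show α < α + 1 by linarith))
    filter_upwards [h1, eventually_gt_atTop 0] with N hN hN0
    have hN0' : (0 : ℝ) < N := by exact_mod_cast hN0
    rw [div_lt_iff₀ hN0'] at hN
    exact hN.le
  have key : ∀ ε : ℝ, 0 < ε → ∀ᵐ ω ∂P, ∀ᶠ N in atTop,
      |pressure (μ N) f (G N ω) - EP (μ N) κ f (M N)| < ε := by
    intro ε hε
    set r : ℝ := Real.exp (-(ε ^ 2 / (8 * (α + 1) * (B + 1) ^ 2))) with hr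
    have hr0 : 0 < r := Real.exp_pos _
    have hr1 : r < 1 := by
      rw [hr]
      have : 0 < ε ^ 2 / (8 * (α + 1) * (B + 1) ^ 2) := by positivity
      exact Real.exp_lt_one_iff.2 (by linarith)
    have hms : ∀ N, MeasurableSet {g : Fin (M N) → Fin N → ℝ |
        ε ≤ |pressure (μ N) f g - EP (μ N) κ f (M N)|} := fun N => by
      haveI := hμ N
      exact measurableSet_le measurable_const ((measurable_pressure (μ N) hf).sub_const _).abs
    have hb : ∀ᶠ N : ℕ in atTop, P {ω | ε ≤ |pressure (μ N) f (G N ω) - EP (μ N) κ f (M N)|} ≤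
        ENNReal.ofReal (2 * r ^ N) := by
      filter_upwards [hle, eventually_gt_atTop 0] with N hN hN0
      haveI := hμ N
      have hN0' : (0 : ℝ) < N := by exact_mod_cast hN0
      have e : P {ω | ε ≤ |pressure (μ N) f (G N ω) - EP (μ N) κ f (M N)|} =
          (entries κ (M N) N) {g | ε ≤ |pressure (μ N) f g - EP (μ N) κ f (M N)|} := by
        rw [← hGl N, Measure.map_apply (hG N) (hms N)]
        rfl
      rw [e, ← ofReal_measureReal]
      refine ENNReal.ofReal_le_ofReal ?_
      rcases Nat.eq_zero_or_pos (M N) with hM0 | hM0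
      · -- no pattern: the pressure is constant
        have hz : ∀ g : Fin (M N) → Fin N → ℝ, pressure (μ N) f g = 0 := by
          intro g
          have h0 : ((M N : ℕ) : ℝ) = 0 := by rw [hM0]; simp
          have := abs_pressure_le' (μ N) hf hB g
          rw [h0] at this
          simpa using this
        have hz2 : EP (μ N) κ f (M N) = 0 := by
          unfold EP
          rw [integral_congr_ae (ae_of_all _ hz)]
          simp
        have hempty : {g : Fin (M N) → Fin N → ℝ |
            ε ≤ |pressure (μ N) f g - EP (μ N) κ f (M N)|} = ∅ := by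
          ext g
          simp only [Set.mem_setOf_eq, Set.mem_empty_iff_false, iff_false, not_le]
          rw [hz g, hz2]
          simpa using hε
        rw [hempty, measureReal_empty]
        positivity
      · have hM0' : (0 : ℝ) < M N := by exact_mod_cast hM0
        refine (concentration (μ N) κ hf hB' (M N) hε.le).trans ?_
        refine mul_le_mul_of_nonneg_left ?_ (by norm_num)
        rw [hr, ← Real.exp_nat_mul]
        refine Real.exp_le_exp.2 ?_
        have h6 : (N : ℝ) * (ε ^ 2 / (8 * (α + 1) * (B + 1) ^ 2)) ≤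
            ε ^ 2 * N ^ 2 / (8 * M N * (B + 1) ^ 2) := by
          rw [← mul_div_assoc, div_le_div_iff₀ (by positivity) (by positivity)]
          have h7 : (0 : ℝ) ≤ N * ε ^ 2 * 8 * (B + 1) ^ 2 := by positivity
          calc (N : ℝ) * ε ^ 2 * (8 * M N * (B + 1) ^ 2)
              = (N * ε ^ 2 * 8 * (B + 1) ^ 2) * M N := by ring
            _ ≤ (N * ε ^ 2 * 8 * (B + 1) ^ 2) * ((α + 1) * N) := mul_le_mul_of_nonneg_left hN h7
            _ = ε ^ 2 * N ^ 2 * (8 * (α + 1) * (B + 1) ^ 2) := by ring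
        linarith
    obtain ⟨N0, hN0⟩ := eventually_atTop.1 hb
    have hsum : ∑' N, P ({ω | ε ≤ |pressure (μ (N + N0)) f (G (N + N0) ω) -
        EP (μ (N + N0)) κ f (M (N + N0))|}) ≠ ⊤ := by
      have h8 : ∑' N, P ({ω | ε ≤ |pressure (μ (N + N0)) f (G (N + N0) ω) -
          EP (μ (N + N0)) κ f (M (N + N0))|}) ≤ ∑' N : ℕ, ENNReal.ofReal (2 * r ^ N) := by
        refine ENNReal.tsum_le_tsum fun N => (hN0 (N + N0) (Nat.le_add_left _ _)).trans ?_
        refine ENNReal.ofReal_le_ofReal (mul_le_mul_of_nonneg_left ?_ (by norm_num))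
        exact pow_le_pow_of_le_one hr0.le hr1.le (Nat.le_add_right _ _)
      refine ne_top_of_le_ne_top ?_ h8
      rw [← ENNReal.ofReal_tsum_of_nonneg (fun N => by positivity)
        ((summable_geometric_of_lt_one hr0.le hr1).mul_left 2)]
      exact ENNReal.ofReal_ne_top
    have h9 := ae_eventually_notMem hsum
    filter_upwards [h9] with ω hω
    obtain ⟨N1, hN1⟩ := eventually_atTop.1 hω
    filter_upwards [eventually_ge_atTop (N1 + N0)] with N hN
    have h10 := hN1 (N - N0) (by omega)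
    rw [Nat.sub_add_cancel (by omega)] at h10
    simpa using h10
  have hall : ∀ᵐ ω ∂P, ∀ k : ℕ, ∀ᶠ N in atTop,
      |pressure (μ N) f (G N ω) - EP (μ N) κ f (M N)| < 1 / ((k : ℝ) + 1) :=
    ae_all_iff.2 fun k => key _ (by positivity)
  filter_upwards [hall] with ω hω
  have h11 : Tendsto (fun N => pressure (μ N) f (G N ω) - EP (μ N) κ f (M N)) atTop (𝓝 0) := by
    rw [Metric.tendsto_atTop]
    intro ε hε
    obtain ⟨k, hk⟩ := exists_nat_one_div_lt hε
    obtain ⟨N1, hN1⟩ := eventually_atTop.1 (hω k)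
    refine ⟨N1, fun N hN => ?_⟩
    rw [Real.dist_eq, sub_zero]
    exact (hN1 N hN).trans hk
  have h12 := h11.add hmean
  simpa using h12

end Vale.Agent.P157.H770
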