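import Vale.Agent.P157.Defs

open MeasureTheory ProbabilityTheory Filter Topology

namespace Vale.Agent.P157

/-- The law of an array of `M` rows (patterns) of `N` entries, all entries independent with the
law `κ`; `entries (gaussianReal 0 1) = patterns`. -/
noncomputable def entries (κ : Measure ℝ) (M N : ℕ) : Measure (Fin M → Fin N → ℝ) :=
  Measure.pi fun _ => Measure.pi fun _ => κ

/-- `p_N(f)` converges to `L` at pattern density `α`, for patterns with independent entries of law
`κ` and the reference measures `μ N`: for every sequence `M N` of numbers of patterns with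
`M N / N → α`, the mean pressure converges to `L`, and on every probability space and for every
coupling `G` of the arrays of the different sizes the pressure converges to `L` almost surely. -/
def PressureLimit (μ : (N : ℕ) → Measure (Fin N → ℝ)) (κ : Measure ℝ) (α : ℝ) (f : ℝ → ℝ)
    (L : ℝ) : Prop :=
  ∀ M : ℕ → ℕ, Tendsto (fun N => (M N : ℝ) / N) atTop (𝓝 α) →
    Tendsto (fun N => ∫ g, pressure (μ N) f g ∂(entries κ (M N) N)) atTop (𝓝 L) ∧
    ∀ (Ω : Type) [MeasurableSpace Ω] (P : Measure Ω) [IsProbabilityMeasure P]
      (G : (N : ℕ) → Ω → Fin (M N) → Fin N → ℝ), (∀ N, Measurable (G N)) →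
      (∀ N, P.map (G N) = entries κ (M N) N) →
      ∀ᵐ ω ∂P, Tendsto (fun N => pressure (μ N) f (G N ω)) atTop (𝓝 L)

end Vale.Agent.P157
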