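import Mathlib
import Vale.Agent.P157.McDiarmid

/-!
# Lindeberg's replacement argument for bounded functions of independent entries
-/

set_option linter.all false

open MeasureTheory ProbabilityTheory

namespace Vale.Agent.P157.H770

section

variable {E : Type*} [MeasurableSpace E] (ν γ : Measure E) [IsProbabilityMeasure ν]
  [IsProbabilityMeasure γ]

/-- replacement of `M` independent coordinates, one at a time -/
theorem lindeberg_pi (M : ℕ) (F : (Fin M → E) → ℝ) (hF : Measurable F) {B δ : ℝ}
    (hB : ∀ x, |F x| ≤ B)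
    (hδ : ∀ x a, |∫ t, F (Function.update x a t) ∂ν - ∫ t, F (Function.update x a t) ∂γ| ≤ δ) :
    |∫ x, F x ∂(Measure.pi fun _ : Fin M => ν) - ∫ x, F x ∂(Measure.pi fun _ : Fin M => γ)| ≤
      M * δ := by
  induction M with
  | zero =>
    have h : ∀ x y : Fin 0 → E, F x = F y := fun x y => by congr 1; exact Subsingleton.elim _ _
    have e1 : ∀ (ρ : Measure E) [IsProbabilityMeasure ρ] (y : Fin 0 → E),
        ∫ x, F x ∂(Measure.pi fun _ : Fin 0 => ρ) = F y := by
      intro ρ _ y
      rw [integral_congr_ae (Filter.Eventually.of_forall fun x => h x y)]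
      simp
    rw [e1 ν Fin.elim0, e1 γ Fin.elim0]
    simp
  | succ M ih =>
    have hcons : Measurable fun z : E × (Fin M → E) => F (Fin.cons z.1 z.2) := by
      refine hF.comp ?_
      have h := (MeasurableEquiv.piFinSuccAbove (fun _ : Fin (M + 1) => E) 0).symm.measurable
      convert h using 1
      funext z
      simp only [MeasurableEquiv.piFinSuccAbove_symm_apply, Fin.insertNthEquiv]
      simp
    have hcy : ∀ x : E, Measurable fun y : Fin M → E => F (Fin.cons x y) := fun x =>
      hcons.comp (measurable_const.prodMk measurable_id)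
    have hcx : ∀ y : Fin M → E, Measurable fun x : E => F (Fin.cons x y) := fun y =>
      hcons.comp (measurable_id.prodMk measurable_const)
    have hb : ∀ {α : Type _} [MeasurableSpace α] (ρ : Measure α) [IsProbabilityMeasure ρ]
        (G : α → ℝ), (∀ x, |G x| ≤ B) → |∫ x, G x ∂ρ| ≤ B := by
      intro α _ ρ _ G hG
      have := norm_integral_le_of_norm_le_const (μ := ρ) (f := G) (C := B)
        (Filter.Eventually.of_forall fun x => by simpa [Real.norm_eq_abs] using hG x)
      simpa [Real.norm_eq_abs] using this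
    have hint : ∀ {α : Type _} [MeasurableSpace α] (ρ : Measure α) [IsProbabilityMeasure ρ]
        (G : α → ℝ), Measurable G → (∀ x, |G x| ≤ B) → Integrable G ρ := by
      intro α _ ρ _ G hGm hG
      exact Integrable.of_bound hGm.aestronglyMeasurable B
        (Filter.Eventually.of_forall fun x => by simpa [Real.norm_eq_abs] using hG x)
    set πν := (Measure.pi fun _ : Fin M => ν) with hπν
    set πγ := (Measure.pi fun _ : Fin M => γ) with hπγ
    rw [integral_pi_cons ν, integral_pi_cons γ]
    have i1 : ∫ z : E × (Fin M → E), F (Fin.cons z.1 z.2) ∂(ν.prod πν) =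
        ∫ x, ∫ y, F (Fin.cons x y) ∂πν ∂ν :=
      integral_prod _ (hint _ _ hcons fun z => hB _)
    have i2 : ∫ z : E × (Fin M → E), F (Fin.cons z.1 z.2) ∂(γ.prod πγ) =
        ∫ y, ∫ x, F (Fin.cons x y) ∂γ ∂πγ :=
      integral_prod_symm _ (hint _ _ hcons fun z => hB _)
    have i3 : ∫ x, ∫ y, F (Fin.cons x y) ∂πγ ∂ν = ∫ y, ∫ x, F (Fin.cons x y) ∂ν ∂πγ := by
      refine integral_integral_swap ?_
      exact hint _ _ hcons fun z => hB _
    rw [i1, i2]
    have hG1 : Measurable fun x : E => ∫ y, F (Fin.cons x y) ∂πν :=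
      (hcons.stronglyMeasurable.integral_prod_right' (ν := πν)).measurable
    have hG2 : Measurable fun x : E => ∫ y, F (Fin.cons x y) ∂πγ :=
      (hcons.stronglyMeasurable.integral_prod_right' (ν := πγ)).measurable
    have hG3 : Measurable fun y : Fin M → E => ∫ x, F (Fin.cons x y) ∂ν :=
      (hcons.stronglyMeasurable.integral_prod_left' (μ := ν)).measurable
    have hG4 : Measurable fun y : Fin M → E => ∫ x, F (Fin.cons x y) ∂γ :=
      (hcons.stronglyMeasurable.integral_prod_left' (μ := γ)).measurable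
    have s1 : |∫ x, ∫ y, F (Fin.cons x y) ∂πν ∂ν - ∫ x, ∫ y, F (Fin.cons x y) ∂πγ ∂ν| ≤
        M * δ := by
      rw [← integral_sub (hint _ _ hG1 fun x => hb _ _ fun y => hB _)
        (hint _ _ hG2 fun x => hb _ _ fun y => hB _)]
      have := norm_integral_le_of_norm_le_const (μ := ν)
        (f := fun x => ∫ y, F (Fin.cons x y) ∂πν - ∫ y, F (Fin.cons x y) ∂πγ) (C := M * δ)
        (Filter.Eventually.of_forall fun x => by
          rw [Real.norm_eq_abs]
          refine ih (fun y => F (Fin.cons x y)) (hcy x) (fun y => hB _) fun y a => ?_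
          have h := hδ (Fin.cons x y : Fin (M + 1) → E) a.succ
          simpa only [Fin.cons_update] using h)
      simpa [Real.norm_eq_abs] using this
    have s2 : |∫ y, ∫ x, F (Fin.cons x y) ∂ν ∂πγ - ∫ y, ∫ x, F (Fin.cons x y) ∂γ ∂πγ| ≤ δ := by
      rw [← integral_sub (hint _ _ hG3 fun x => hb _ _ fun y => hB _)
        (hint _ _ hG4 fun x => hb _ _ fun y => hB _)]
      have := norm_integral_le_of_norm_le_const (μ := πγ)
        (f := fun y => ∫ x, F (Fin.cons x y) ∂ν - ∫ x, F (Fin.cons x y) ∂γ) (C := δ)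
        (Filter.Eventually.of_forall fun y => by
          rw [Real.norm_eq_abs]
          obtain ⟨e0⟩ : Nonempty E := by
            by_contra hne
            rw [not_nonempty_iff] at hne
            have h0 : ν Set.univ = 0 := by rw [Set.univ_eq_empty_iff.2 hne, measure_empty]
            rw [measure_univ] at h0
            exact one_ne_zero h0
          have h := hδ (Fin.cons e0 y : Fin (M + 1) → E) 0
          simpa only [Fin.update_cons_zero] using h)
      simpa [Real.norm_eq_abs] using this
    rw [i3] at s1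
    calc |∫ x, ∫ y, F (Fin.cons x y) ∂πν ∂ν - ∫ y, ∫ x, F (Fin.cons x y) ∂γ ∂πγ|
        ≤ |∫ x, ∫ y, F (Fin.cons x y) ∂πν ∂ν - ∫ y, ∫ x, F (Fin.cons x y) ∂ν ∂πγ| +
          |∫ y, ∫ x, F (Fin.cons x y) ∂ν ∂πγ - ∫ y, ∫ x, F (Fin.cons x y) ∂γ ∂πγ| :=
          abs_sub_le _ _ _
      _ ≤ M * δ + δ := add_le_add s1 s2
      _ = (M + 1 : ℕ) * δ := by push_cast; ring

end

/-- replacement of the `M × N` entries of an array -/
theorem lindeberg_array (ν γ : Measure ℝ) [IsProbabilityMeasure ν] [IsProbabilityMeasure γ]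
    {M N : ℕ} (F : (Fin M → Fin N → ℝ) → ℝ) (hF : Measurable F) {B δ : ℝ}
    (hB : ∀ x, |F x| ≤ B)
    (hδ : ∀ (g : Fin M → Fin N → ℝ) (a : Fin M) (i : Fin N),
      |∫ t, F (Function.update g a (Function.update (g a) i t)) ∂ν -
        ∫ t, F (Function.update g a (Function.update (g a) i t)) ∂γ| ≤ δ) :
    |∫ g, F g ∂(Measure.pi fun _ : Fin M => Measure.pi fun _ : Fin N => ν) -
      ∫ g, F g ∂(Measure.pi fun _ : Fin M => Measure.pi fun _ : Fin N => γ)| ≤
      M * (N * δ) := by
  refine lindeberg_pi _ _ M F hF hB fun g a => ?_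
  refine lindeberg_pi ν γ N (fun v => F (Function.update g a v))
    (hF.comp (measurable_update g)) (fun v => hB _) fun v i => ?_
  have h := hδ (Function.update g a v) a i
  simpa only [Function.update_self, Function.update_idem] using h

end Vale.Agent.P157.H770
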