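import Mathlib

/-!
# Third order Taylor expansion of `log ∑ w exp f`
-/

set_option linter.all false

open MeasureTheory ProbabilityTheory

namespace Vale.Agent.P157.H770

/-- mean value inequality around `0` -/
theorem mvt0 {F F' : ℝ → ℝ} (hF : ∀ s, HasDerivAt F (F' s) s) {C t : ℝ}
    (hC : ∀ s, |s| ≤ |t| → |F' s| ≤ C) : |F t - F 0| ≤ C * |t| := by
  have h := (convex_Icc (-|t|) |t|).norm_image_sub_le_of_norm_hasDerivWithin_le
    (f := F) (f' := F') (C := C) (fun s _ => (hF s).hasDerivWithinAt)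
    (fun s hs => by rw [Real.norm_eq_abs]; exact hC s (abs_le.2 hs))
    (x := 0) (y := t) ⟨by simp, by simp⟩ ⟨neg_abs_le t, le_abs_self t⟩
  simpa [Real.norm_eq_abs] using h

/-- Taylor expansion of the logarithm of a positive function -/
theorem log_taylor {Z Z1 Z2 Z3 : ℝ → ℝ} {K c : ℝ} (hK : 0 ≤ K) (hc : 0 ≤ c)
    (hZ : ∀ t, 0 < Z t) (h1 : ∀ t, HasDerivAt Z (Z1 t) t) (h2 : ∀ t, HasDerivAt Z1 (Z2 t) t)
    (h3 : ∀ t, HasDerivAt Z2 (Z3 t) t) (b1 : ∀ t, |Z1 t| ≤ K * c * Z t)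
    (b2 : ∀ t, |Z2 t| ≤ K * c ^ 2 * Z t) (b3 : ∀ t, |Z3 t| ≤ K * c ^ 3 * Z t) :
    ∃ a b : ℝ, ∀ t, |Real.log (Z t) - Real.log (Z 0) - a * t - b * t ^ 2| ≤
      (2 * K + 3 * K ^ 2 + 2 * K ^ 3) * min (c ^ 2 * t ^ 2) (c ^ 3 * |t| ^ 3) := by
  set r1 : ℝ → ℝ := fun t => Z1 t / Z t with hr1
  set r2 : ℝ → ℝ := fun t => Z2 t / Z t with hr2
  set r3 : ℝ → ℝ := fun t => Z3 t / Z t with hr3
  have e0 : ∀ t, Z t ≠ 0 := fun t => (hZ t).ne'
  have q1 : ∀ t, |r1 t| ≤ K * c := fun t => by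
    rw [hr1]; simp only
    rw [abs_div, abs_of_pos (hZ t), div_le_iff₀ (hZ t)]; exact b1 t
  have q2 : ∀ t, |r2 t| ≤ K * c ^ 2 := fun t => by
    rw [hr2]; simp only
    rw [abs_div, abs_of_pos (hZ t), div_le_iff₀ (hZ t)]; exact b2 t
  have q3 : ∀ t, |r3 t| ≤ K * c ^ 3 := fun t => by
    rw [hr3]; simp only
    rw [abs_div, abs_of_pos (hZ t), div_le_iff₀ (hZ t)]; exact b3 t
  -- derivatives
  have d0 : ∀ t, HasDerivAt (fun t => Real.log (Z t)) (r1 t) t := fun t =>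
    (h1 t).log (e0 t)
  have d1 : ∀ t, HasDerivAt r1 (r2 t - r1 t ^ 2) t := fun t => by
    have := (h2 t).div (h1 t) (e0 t)
    refine this.congr_deriv ?_
    simp only [hr1, hr2]
    field_simp [e0 t]
  have d2 : ∀ t, HasDerivAt (fun t => r2 t - r1 t ^ 2)
      (r3 t - r2 t * r1 t - 2 * r1 t * (r2 t - r1 t ^ 2)) t := fun t => by
    have a1 : HasDerivAt r2 (r3 t - r2 t * r1 t) t := by
      have := (h3 t).div (h1 t) (e0 t)
      refine this.congr_deriv ?_
      simp only [hr1, hr2, hr3]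
      field_simp [e0 t]
    have a2 := (d1 t).pow 2
    refine (a1.sub a2).congr_deriv ?_
    simp only [Nat.cast_ofNat]
    ring
  have B2 : ∀ t, |r2 t - r1 t ^ 2| ≤ (K + K ^ 2) * c ^ 2 := fun t => by
    have s1 : |r1 t ^ 2| ≤ (K * c) ^ 2 := by
      rw [abs_pow]; exact pow_le_pow_left₀ (abs_nonneg _) (q1 t) 2
    calc |r2 t - r1 t ^ 2| ≤ |r2 t| + |r1 t ^ 2| := abs_sub _ _
      _ ≤ K * c ^ 2 + (K * c) ^ 2 := add_le_add (q2 t) s1
      _ = _ := by ring
  have B3 : ∀ t, |r3 t - r2 t * r1 t - 2 * r1 t * (r2 t - r1 t ^ 2)| ≤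
      (K + 3 * K ^ 2 + 2 * K ^ 3) * c ^ 3 := fun t => by
    have s1 : |r2 t * r1 t| ≤ (K * c ^ 2) * (K * c) := by
      rw [abs_mul]; exact mul_le_mul (q2 t) (q1 t) (abs_nonneg _) (by positivity)
    have s2 : |2 * r1 t * (r2 t - r1 t ^ 2)| ≤ 2 * (K * c) * ((K + K ^ 2) * c ^ 2) := by
      rw [abs_mul, abs_mul, abs_two]
      exact mul_le_mul (mul_le_mul_of_nonneg_left (q1 t) (by norm_num)) (B2 t) (abs_nonneg _)
        (by positivity)
    calc |r3 t - r2 t * r1 t - 2 * r1 t * (r2 t - r1 t ^ 2)|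
        ≤ |r3 t - r2 t * r1 t| + |2 * r1 t * (r2 t - r1 t ^ 2)| := abs_sub _ _
      _ ≤ (|r3 t| + |r2 t * r1 t|) + |2 * r1 t * (r2 t - r1 t ^ 2)| :=
          add_le_add (abs_sub _ _) le_rfl
      _ ≤ (K * c ^ 3 + (K * c ^ 2) * (K * c)) + 2 * (K * c) * ((K + K ^ 2) * c ^ 2) :=
          add_le_add (add_le_add (q3 t) s1) s2
      _ = _ := by ring
  set a := r1 0 with ha
  set b := (r2 0 - r1 0 ^ 2) / 2 with hb
  refine ⟨a, b, fun t => ?_⟩
  -- the remainders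
  have D0 : ∀ s, HasDerivAt (fun s => Real.log (Z s) - Real.log (Z 0) - a * s - b * s ^ 2)
      (r1 s - a - 2 * b * s) s := fun s => by
    have := (((d0 s).sub_const (Real.log (Z 0))).sub ((hasDerivAt_id s).const_mul a)).sub
      (((hasDerivAt_id s).pow 2).const_mul b)
    refine this.congr_deriv ?_
    simp only [id, Nat.cast_ofNat]
    ring
  have D1 : ∀ s, HasDerivAt (fun s => r1 s - a - 2 * b * s)
      ((r2 s - r1 s ^ 2) - 2 * b) s := fun s => by
    have := ((d1 s).sub_const a).sub ((hasDerivAt_id s).const_mul (2 * b))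
    refine this.congr_deriv ?_
    simp only [mul_one]
  have R2a : ∀ s, |(r2 s - r1 s ^ 2) - 2 * b| ≤ (K + 3 * K ^ 2 + 2 * K ^ 3) * c ^ 3 * |s| := by
    intro s
    have := mvt0 d2 (t := s) (C := (K + 3 * K ^ 2 + 2 * K ^ 3) * c ^ 3) fun u _ => B3 u
    have e : 2 * b = r2 0 - r1 0 ^ 2 := by rw [hb]; ring
    rw [e]; exact this
  have R2b : ∀ s, |(r2 s - r1 s ^ 2) - 2 * b| ≤ 2 * (K + K ^ 2) * c ^ 2 := by
    intro s
    have e : 2 * b = r2 0 - r1 0 ^ 2 := by rw [hb]; ring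
    rw [e]
    calc _ ≤ |r2 s - r1 s ^ 2| + |r2 0 - r1 0 ^ 2| := abs_sub _ _
      _ ≤ (K + K ^ 2) * c ^ 2 + (K + K ^ 2) * c ^ 2 := add_le_add (B2 s) (B2 0)
      _ = _ := by ring
  have R1a : ∀ s, |r1 s - a - 2 * b * s| ≤ (K + 3 * K ^ 2 + 2 * K ^ 3) * c ^ 3 * |s| * |s| := by
    intro s
    have := mvt0 D1 (t := s) (C := (K + 3 * K ^ 2 + 2 * K ^ 3) * c ^ 3 * |s|) fun u hu =>
      (R2a u).trans (mul_le_mul_of_nonneg_left hu (by positivity))
    simpa [ha] using this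
  have R1b : ∀ s, |r1 s - a - 2 * b * s| ≤ 2 * (K + K ^ 2) * c ^ 2 * |s| := by
    intro s
    have := mvt0 D1 (t := s) (C := 2 * (K + K ^ 2) * c ^ 2) fun u hu => R2b u
    simpa [ha] using this
  have R0a : |Real.log (Z t) - Real.log (Z 0) - a * t - b * t ^ 2| ≤
      (K + 3 * K ^ 2 + 2 * K ^ 3) * c ^ 3 * |t| * |t| * |t| := by
    have := mvt0 D0 (t := t) (C := (K + 3 * K ^ 2 + 2 * K ^ 3) * c ^ 3 * |t| * |t|) fun u hu =>
      (R1a u).trans (by gcongr)
    simpa using this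
  have R0b : |Real.log (Z t) - Real.log (Z 0) - a * t - b * t ^ 2| ≤
      2 * (K + K ^ 2) * c ^ 2 * |t| * |t| := by
    have := mvt0 D0 (t := t) (C := 2 * (K + K ^ 2) * c ^ 2 * |t|) fun u hu =>
      (R1b u).trans (by gcongr)
    simpa using this
  rw [mul_min_of_nonneg _ _ (by positivity)]
  refine le_min ?_ ?_
  · refine R0b.trans ?_
    have e : 2 * (K + K ^ 2) * c ^ 2 * |t| * |t| = (2 * K + 2 * K ^ 2) * (c ^ 2 * t ^ 2) := by
      rw [← sq_abs t]; ring
    rw [e]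
    refine mul_le_mul_of_nonneg_right ?_ (by positivity)
    nlinarith [pow_nonneg hK 2, pow_nonneg hK 3]
  · refine R0a.trans ?_
    have e : (K + 3 * K ^ 2 + 2 * K ^ 3) * c ^ 3 * |t| * |t| * |t| =
        (K + 3 * K ^ 2 + 2 * K ^ 3) * (c ^ 3 * |t| ^ 3) := by ring
    rw [e]
    refine mul_le_mul_of_nonneg_right ?_ (by positivity)
    linarith

/-- potentials with three bounded derivatives -/
structure C3b (f f1 f2 f3 : ℝ → ℝ) (D : ℝ) : Prop where
  d1 : ∀ x, HasDerivAt f (f1 x) x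
  d2 : ∀ x, HasDerivAt f1 (f2 x) x
  d3 : ∀ x, HasDerivAt f2 (f3 x) x
  b1 : ∀ x, |f1 x| ≤ D
  b2 : ∀ x, |f2 x| ≤ D
  b3 : ∀ x, |f3 x| ≤ D

theorem C3b.nonneg {f f1 f2 f3 : ℝ → ℝ} {D : ℝ} (h : C3b f f1 f2 f3 D) : 0 ≤ D :=
  (abs_nonneg _).trans (h.b1 0)

/-- constant of the expansion -/
noncomputable def QQ (D : ℝ) : ℝ :=
  2 * (D + 3 * D ^ 2 + D ^ 3) + 3 * (D + 3 * D ^ 2 + D ^ 3) ^ 2 +
    2 * (D + 3 * D ^ 2 + D ^ 3) ^ 3

theorem QQ_nonneg {D : ℝ} (hD : 0 ≤ D) : 0 ≤ QQ D := by unfold QQ; positivity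

/-- expansion of `log ∑ w_x exp f(u_x + t c_x)` -/
theorem logsum_taylor {X : Type*} [Fintype X] [Nonempty X] {f f1 f2 f3 : ℝ → ℝ} {D : ℝ}
    (hf : C3b f f1 f2 f3 D) {w u v : X → ℝ} (hw : ∀ x, 0 < w x) {c : ℝ}
    (hv : ∀ x, |v x| ≤ c) :
    ∃ a b : ℝ, ∀ t, |Real.log (∑ x, w x * Real.exp (f (u x + t * v x))) -
        Real.log (∑ x, w x * Real.exp (f (u x + 0 * v x))) - a * t - b * t ^ 2| ≤
      QQ D * min (c ^ 2 * t ^ 2) (c ^ 3 * |t| ^ 3) := by
  have hD := hf.nonneg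
  obtain ⟨x0⟩ := ‹Nonempty X›
  have hc : 0 ≤ c := (abs_nonneg _).trans (hv x0)
  set y : X → ℝ → ℝ := fun x t => u x + t * v x with hy
  have dy : ∀ x t, HasDerivAt (y x) (v x) t := fun x t => by
    have := ((hasDerivAt_id t).mul_const (v x)).const_add (u x)
    simpa [hy] using this
  set E : X → ℝ → ℝ := fun x t => Real.exp (f (y x t)) with hE
  have dE : ∀ x t, HasDerivAt (E x) (v x * f1 (y x t) * E x t) t := fun x t => by
    have h1 := (hf.d1 (y x t)).comp t (dy x t)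
    have h2 := h1.exp
    refine h2.congr_deriv ?_
    simp only [hE, Function.comp]
    ring
  have df1 : ∀ x t, HasDerivAt (fun t => f1 (y x t)) (f2 (y x t) * v x) t := fun x t =>
    (hf.d2 (y x t)).comp t (dy x t)
  have df2 : ∀ x t, HasDerivAt (fun t => f2 (y x t)) (f3 (y x t) * v x) t := fun x t =>
    (hf.d3 (y x t)).comp t (dy x t)
  have hEp : ∀ x t, 0 < E x t := fun x t => Real.exp_pos _
  set Z : ℝ → ℝ := fun t => ∑ x, w x * E x t with hZ
  set Z1 : ℝ → ℝ := fun t => ∑ x, w x * (v x * f1 (y x t) * E x t) with hZ1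
  set Z2 : ℝ → ℝ := fun t => ∑ x, w x * (v x ^ 2 * (f2 (y x t) + f1 (y x t) ^ 2) * E x t) with hZ2
  set Z3 : ℝ → ℝ := fun t => ∑ x, w x * (v x ^ 3 * (f3 (y x t) + 3 * f1 (y x t) * f2 (y x t) +
    f1 (y x t) ^ 3) * E x t) with hZ3
  have g1 : ∀ t, HasDerivAt Z (Z1 t) t := fun t =>
    HasDerivAt.fun_sum fun x _ => (dE x t).const_mul (w x)
  have g2 : ∀ t, HasDerivAt Z1 (Z2 t) t := fun t => by
    refine HasDerivAt.fun_sum fun x _ => ?_
    have h1 := (((df1 x t).const_mul (v x)).mul (dE x t)).const_mul (w x)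
    refine h1.congr_deriv ?_
    ring
  have g3 : ∀ t, HasDerivAt Z2 (Z3 t) t := fun t => by
    refine HasDerivAt.fun_sum fun x _ => ?_
    have h1 := ((((df2 x t).add ((df1 x t).pow 2)).const_mul (v x ^ 2)).mul
      (dE x t)).const_mul (w x)
    refine h1.congr_deriv ?_
    simp only [Nat.cast_ofNat, Pi.add_apply, Pi.pow_apply]
    ring
  have hZpos : ∀ t, 0 < Z t := fun t =>
    Finset.sum_pos (fun x _ => mul_pos (hw x) (hEp x t)) ⟨x0, Finset.mem_univ _⟩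
  have hvk : ∀ x (k : ℕ), |v x ^ k| ≤ c ^ k := fun x k => by
    rw [abs_pow]; exact pow_le_pow_left₀ (abs_nonneg _) (hv x) k
  have bnd : ∀ (k : ℕ) (φ : X → ℝ → ℝ) (C : ℝ), 0 ≤ C → (∀ x t, |φ x t| ≤ C) → ∀ t,
      |∑ x, w x * (v x ^ k * φ x t * E x t)| ≤ C * c ^ k * Z t := by
    intro k φ C hC hφ t
    refine (Finset.abs_sum_le_sum_abs _ _).trans ?_
    rw [hZ]
    simp only
    rw [Finset.mul_sum]
    refine Finset.sum_le_sum fun x _ => ?_
    rw [abs_mul, abs_mul, abs_mul, abs_of_pos (hw x), abs_of_pos (hEp x t)]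
    calc w x * (|v x ^ k| * |φ x t| * E x t) ≤ w x * (c ^ k * C * E x t) := by
          refine mul_le_mul_of_nonneg_left (mul_le_mul_of_nonneg_right ?_ (hEp x t).le) (hw x).le
          exact mul_le_mul (hvk x k) (hφ x t) (abs_nonneg _) (by positivity)
      _ = C * c ^ k * (w x * E x t) := by ring
  set K := D + 3 * D ^ 2 + D ^ 3 with hKdef
  have hK : 0 ≤ K := by rw [hKdef]; positivity
  have B1 : ∀ t, |Z1 t| ≤ K * c * Z t := fun t => by
    have h1 := bnd 1 (fun x t => f1 (y x t)) D hD (fun x t => hf.b1 _) t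
    simp only [pow_one] at h1
    refine h1.trans ?_
    refine mul_le_mul_of_nonneg_right (mul_le_mul_of_nonneg_right ?_ hc) (hZpos t).le
    rw [hKdef]; nlinarith [pow_nonneg hD 2, pow_nonneg hD 3]
  have B2 : ∀ t, |Z2 t| ≤ K * c ^ 2 * Z t := fun t => by
    have h1 := bnd 2 (fun x t => f2 (y x t) + f1 (y x t) ^ 2) (D + D ^ 2) (by positivity)
      (fun x t => by
        refine (abs_add_le _ _).trans (add_le_add (hf.b2 _) ?_)
        rw [abs_pow]; exact pow_le_pow_left₀ (abs_nonneg _) (hf.b1 _) 2) t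
    refine h1.trans ?_
    refine mul_le_mul_of_nonneg_right (mul_le_mul_of_nonneg_right ?_ (by positivity)) (hZpos t).le
    rw [hKdef]; nlinarith [pow_nonneg hD 2, pow_nonneg hD 3]
  have B3 : ∀ t, |Z3 t| ≤ K * c ^ 3 * Z t := fun t => by
    have h1 := bnd 3 (fun x t => f3 (y x t) + 3 * f1 (y x t) * f2 (y x t) + f1 (y x t) ^ 3) K hK
      (fun x t => by
        have t1 : |3 * f1 (y x t) * f2 (y x t)| ≤ 3 * D * D := by
          rw [abs_mul, abs_mul, abs_of_pos (by norm_num : (0 : ℝ) < 3)]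
          exact mul_le_mul (mul_le_mul_of_nonneg_left (hf.b1 _) (by norm_num)) (hf.b2 _)
            (abs_nonneg _) (by positivity)
        have t2 : |f1 (y x t) ^ 3| ≤ D ^ 3 := by
          rw [abs_pow]; exact pow_le_pow_left₀ (abs_nonneg _) (hf.b1 _) 3
        calc _ ≤ |f3 (y x t) + 3 * f1 (y x t) * f2 (y x t)| + |f1 (y x t) ^ 3| := abs_add_le _ _
          _ ≤ (|f3 (y x t)| + |3 * f1 (y x t) * f2 (y x t)|) + |f1 (y x t) ^ 3| :=
              add_le_add (abs_add_le _ _) le_rfl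
          _ ≤ (D + 3 * D * D) + D ^ 3 := add_le_add (add_le_add (hf.b3 _) t1) t2
          _ = K := by rw [hKdef]; ring) t
    exact h1
  obtain ⟨a, b, hab⟩ := log_taylor hK hc hZpos g1 g2 g3 B1 B2 B3
  exact ⟨a, b, fun t => hab t⟩

/-- comparison of two centred laws of variance one in the expansion -/
theorem swap_le {X : Type*} [Fintype X] [Nonempty X] {f f1 f2 f3 : ℝ → ℝ} {D B : ℝ}
    (hf : C3b f f1 f2 f3 D) (hB : ∀ x, |f x| ≤ B) {w u v : X → ℝ} (hw : ∀ x, 0 < w x) {c : ℝ}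
    (hv : ∀ x, |v x| ≤ c) (ν γ : Measure ℝ) [IsProbabilityMeasure ν] [IsProbabilityMeasure γ]
    (iν : Integrable (fun t => t ^ 2) ν) (iγ : Integrable (fun t => t ^ 2) γ)
    (m1 : ∫ t, t ∂ν = ∫ t, t ∂γ) (m2 : ∫ t, t ^ 2 ∂ν = ∫ t, t ^ 2 ∂γ) :
    |∫ t, Real.log (∑ x, w x * Real.exp (f (u x + t * v x))) ∂ν -
        ∫ t, Real.log (∑ x, w x * Real.exp (f (u x + t * v x))) ∂γ| ≤
      QQ D * (∫ t, min (c ^ 2 * t ^ 2) (c ^ 3 * |t| ^ 3) ∂ν +
        ∫ t, min (c ^ 2 * t ^ 2) (c ^ 3 * |t| ^ 3) ∂γ) := by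
  obtain ⟨a, b, hab⟩ := logsum_taylor (u := u) hf hw hv
  have hQ := QQ_nonneg hf.nonneg
  obtain ⟨x0⟩ := ‹Nonempty X›
  have hc : 0 ≤ c := (abs_nonneg _).trans (hv x0)
  set h : ℝ → ℝ := fun t => Real.log (∑ x, w x * Real.exp (f (u x + t * v x))) with hh
  have hfc : Continuous f := continuous_iff_continuousAt.2 fun x => (hf.d1 x).continuousAt
  have hpos : ∀ t, 0 < ∑ x, w x * Real.exp (f (u x + t * v x)) := fun t =>
    Finset.sum_pos (fun x _ => mul_pos (hw x) (Real.exp_pos _)) ⟨x0, Finset.mem_univ _⟩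
  have hcont : Continuous h := by
    refine Continuous.log ?_ fun t => (hpos t).ne'
    fun_prop
  set H0 := Real.log (∑ x, w x * Real.exp (f (u x + 0 * v x))) with hH0
  -- integrability of the pieces
  have hbd : ∀ t, |h t| ≤ |Real.log (∑ x, w x)| + B := by
    intro t
    have hW : 0 < ∑ x, w x := Finset.sum_pos (fun x _ => hw x) ⟨x0, Finset.mem_univ _⟩
    have u1 : ∑ x, w x * Real.exp (f (u x + t * v x)) ≤ (∑ x, w x) * Real.exp B := by
      rw [Finset.sum_mul]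
      exact Finset.sum_le_sum fun x _ => mul_le_mul_of_nonneg_left
        (Real.exp_le_exp.2 (abs_le.1 (hB _)).2) (hw x).le
    have u2 : (∑ x, w x) * Real.exp (-B) ≤ ∑ x, w x * Real.exp (f (u x + t * v x)) := by
      rw [Finset.sum_mul]
      exact Finset.sum_le_sum fun x _ => mul_le_mul_of_nonneg_left
        (Real.exp_le_exp.2 (abs_le.1 (hB _)).1) (hw x).le
    have u3 := Real.log_le_log (hpos t) u1
    have u4 := Real.log_le_log (mul_pos hW (Real.exp_pos _)) u2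
    rw [Real.log_mul hW.ne' (Real.exp_pos _).ne', Real.log_exp] at u3 u4
    have u5 := neg_abs_le (Real.log (∑ x, w x))
    have u6 := le_abs_self (Real.log (∑ x, w x))
    rw [abs_le]
    constructor
    · change _ ≤ Real.log _; linarith
    · change Real.log _ ≤ _; linarith
  have key : ∀ (ρ : Measure ℝ) [IsProbabilityMeasure ρ], Integrable (fun t => t ^ 2) ρ →
      |∫ t, h t ∂ρ - (H0 + a * ∫ t, t ∂ρ + b * ∫ t, t ^ 2 ∂ρ)| ≤
        QQ D * ∫ t, min (c ^ 2 * t ^ 2) (c ^ 3 * |t| ^ 3) ∂ρ := by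
    intro ρ _ iρ
    have i1 : Integrable (fun t : ℝ => t) ρ := by
      refine Integrable.mono' (g := fun t : ℝ => 1 + t ^ 2) ((integrable_const 1).add iρ)
        aestronglyMeasurable_id (Filter.Eventually.of_forall fun t => ?_)
      rw [Real.norm_eq_abs]
      nlinarith [sq_nonneg (|t| - 1), sq_abs t, abs_nonneg t]
    have ih : Integrable h ρ := Integrable.of_bound hcont.aestronglyMeasurable
      (|Real.log (∑ x, w x)| + B) (Filter.Eventually.of_forall fun t => by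
        rw [Real.norm_eq_abs]; exact hbd t)
    have imin : Integrable (fun t : ℝ => min (c ^ 2 * t ^ 2) (c ^ 3 * |t| ^ 3)) ρ := by
      refine Integrable.mono' (iρ.const_mul (c ^ 2)) ?_ (Filter.Eventually.of_forall fun t => ?_)
      · exact (Continuous.aestronglyMeasurable (by fun_prop))
      · rw [Real.norm_eq_abs, abs_of_nonneg (le_min (by positivity) (by positivity))]
        exact min_le_left _ _
    have iR : Integrable (fun t => h t - H0 - a * t - b * t ^ 2) ρ :=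
      ((ih.sub (integrable_const _)).sub (i1.const_mul a)).sub (iρ.const_mul b)
    have e1 : ∫ t, (h t - H0 - a * t - b * t ^ 2) ∂ρ =
        ∫ t, h t ∂ρ - (H0 + a * ∫ t, t ∂ρ + b * ∫ t, t ^ 2 ∂ρ) := by
      have j1 : Integrable (fun t => h t - H0) ρ := ih.sub (integrable_const _)
      have j4 : Integrable (fun t => a * t) ρ := i1.const_mul a
      have j2 : Integrable (fun t => h t - H0 - a * t) ρ := j1.sub j4
      have j3 : Integrable (fun t => b * t ^ 2) ρ := iρ.const_mul b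
      rw [integral_sub j2 j3, integral_sub j1 j4, integral_sub ih (integrable_const _),
        integral_const_mul, integral_const_mul, integral_const]
      simp
      ring
    rw [← e1, ← integral_const_mul]
    refine (abs_integral_le_integral_abs).trans ?_
    exact integral_mono iR.abs (imin.const_mul _) fun t => hab t
  have k1 := key ν iν
  have k2 := key γ iγ
  rw [m1, m2] at k1
  calc |∫ t, h t ∂ν - ∫ t, h t ∂γ|
      = |(∫ t, h t ∂ν - (H0 + a * ∫ t, t ∂γ + b * ∫ t, t ^ 2 ∂γ)) -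
        (∫ t, h t ∂γ - (H0 + a * ∫ t, t ∂γ + b * ∫ t, t ^ 2 ∂γ))| := by congr 1; ring
    _ ≤ |∫ t, h t ∂ν - (H0 + a * ∫ t, t ∂γ + b * ∫ t, t ^ 2 ∂γ)| +
        |∫ t, h t ∂γ - (H0 + a * ∫ t, t ∂γ + b * ∫ t, t ^ 2 ∂γ)| := abs_sub _ _
    _ ≤ _ := by rw [mul_add]; exact add_le_add k1 k2

/-- the remainder integral tends to zero -/
theorem tendsto_rem (ν : Measure ℝ) [IsProbabilityMeasure ν]
    (iν : Integrable (fun t => t ^ 2) ν) :
    Filter.Tendsto (fun N : ℕ => (N : ℝ) * ∫ t, min ((1 / √(N : ℝ)) ^ 2 * t ^ 2)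
      ((1 / √(N : ℝ)) ^ 3 * |t| ^ 3) ∂ν) Filter.atTop (nhds 0) := by
  have h : Filter.Tendsto (fun N : ℕ => ∫ t, min (t ^ 2) (|t| ^ 3 * (1 / √(N : ℝ))) ∂ν)
      Filter.atTop (nhds (∫ t, (0 : ℝ) ∂ν)) := by
    refine tendsto_integral_filter_of_dominated_convergence (fun t => t ^ 2)
      (Filter.Eventually.of_forall fun N => (Continuous.aestronglyMeasurable (by fun_prop)))
      (Filter.Eventually.of_forall fun N => Filter.Eventually.of_forall fun t => ?_) iν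
      (Filter.Eventually.of_forall fun t => ?_)
    · rw [Real.norm_eq_abs, abs_of_nonneg (le_min (by positivity) (by positivity))]
      exact min_le_left _ _
    · have h1 : Filter.Tendsto (fun N : ℕ => 1 / √(N : ℝ)) Filter.atTop (nhds 0) := by
        have h2 : Filter.Tendsto (fun N : ℕ => √(N : ℝ)) Filter.atTop Filter.atTop :=
          Real.tendsto_sqrt_atTop.comp tendsto_natCast_atTop_atTop
        refine h2.inv_tendsto_atTop.congr fun N => ?_
        simp only [Pi.inv_apply, one_div]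
      have h3 : Filter.Tendsto (fun N : ℕ => |t| ^ 3 * (1 / √(N : ℝ))) Filter.atTop (nhds 0) := by
        simpa using h1.const_mul (|t| ^ 3)
      have h4 := (tendsto_const_nhds (x := t ^ 2) (f := Filter.atTop (α := ℕ))).min h3
      rwa [min_eq_right (sq_nonneg t)] at h4
  rw [integral_zero] at h
  refine h.congr' ?_
  filter_upwards [Filter.eventually_gt_atTop 0] with N hN
  have hN' : (0 : ℝ) < N := by exact_mod_cast hN
  rw [← integral_const_mul]
  refine integral_congr_ae (Filter.Eventually.of_forall fun t => ?_)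
  simp only
  rw [mul_min_of_nonneg _ _ hN'.le]
  have hs : √(N : ℝ) ^ 2 = N := Real.sq_sqrt hN'.le
  have hs0 : √(N : ℝ) ≠ 0 := (Real.sqrt_pos.2 hN').ne'
  congr 1
  · rw [one_div, inv_pow, hs]
    field_simp
  · have : (N : ℝ) * ((1 / √(N : ℝ)) ^ 3 * |t| ^ 3) =
        (√(N : ℝ) ^ 2) * ((1 / √(N : ℝ)) ^ 3 * |t| ^ 3) := by rw [hs]
    rw [this]
    field_simp

end Vale.Agent.P157.H770
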