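import Mathlib
import Vale.Agent.P157.H770.Tay

/-!
# One-sided smooth approximation of bounded almost everywhere continuous functions
-/

set_option linter.all false

open MeasureTheory ProbabilityTheory Filter Topology Set
open scoped Convolution ContDiff

namespace Vale.Agent.P157.H770

/-- local supremum -/
noncomputable def sup1 (f : ℝ → ℝ) (δ : ℝ) (x : ℝ) : ℝ := ⨆ y : Metric.ball x δ, f y

variable {f : ℝ → ℝ} {B : ℝ}

theorem bdd_sup1 (hB : ∀ x, |f x| ≤ B) (δ x : ℝ) :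
    BddAbove (Set.range fun y : Metric.ball x δ => f y) :=
  ⟨B, by rintro _ ⟨y, rfl⟩; exact (abs_le.1 (hB _)).2⟩

theorem le_sup1 (hB : ∀ x, |f x| ≤ B) {δ x y : ℝ} (h : |y - x| < δ) : f y ≤ sup1 f δ x :=
  le_ciSup (bdd_sup1 hB δ x) ⟨y, by rw [Metric.mem_ball, Real.dist_eq]; exact h⟩

theorem sup1_le {δ x c : ℝ} (hδ : 0 < δ) (h : ∀ y, |y - x| < δ → f y ≤ c) : sup1 f δ x ≤ c := by
  haveI : Nonempty (Metric.ball x δ) := ⟨⟨x, Metric.mem_ball_self hδ⟩⟩
  refine ciSup_le fun y => h y ?_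
  have := y.2
  rwa [Metric.mem_ball, Real.dist_eq] at this

theorem abs_sup1_le (hB : ∀ x, |f x| ≤ B) {δ : ℝ} (hδ : 0 < δ) (x : ℝ) : |sup1 f δ x| ≤ B := by
  rw [abs_le]
  constructor
  · exact (abs_le.1 (hB x)).1.trans (le_sup1 hB (by simpa using hδ))
  · exact sup1_le hδ fun y _ => (abs_le.1 (hB y)).2

theorem measurable_sup1 (hB : ∀ x, |f x| ≤ B) {δ : ℝ} (hδ : 0 < δ) : Measurable (sup1 f δ) := by
  refine measurable_of_Ioi fun t => ?_
  have : sup1 f δ ⁻¹' Set.Ioi t = ⋃ y ∈ {y | t < f y}, Metric.ball y δ := by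
    ext x
    simp only [Set.mem_preimage, Set.mem_Ioi, Set.mem_iUnion, Set.mem_setOf_eq, exists_prop]
    haveI : Nonempty (Metric.ball x δ) := ⟨⟨x, Metric.mem_ball_self hδ⟩⟩
    constructor
    · intro h
      obtain ⟨y, hy⟩ := (lt_ciSup_iff (bdd_sup1 hB δ x)).1 h
      exact ⟨y, hy, by rw [Metric.mem_ball_comm]; exact y.2⟩
    · rintro ⟨y, hy, hx⟩
      rw [Metric.mem_ball, Real.dist_eq, abs_sub_comm] at hx
      exact lt_of_lt_of_le hy (le_sup1 hB hx)
  rw [this]
  exact (isOpen_biUnion fun y _ => Metric.isOpen_ball).measurableSet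

/-- the bump -/
noncomputable def bmp (δ : ℝ) (hδ : 0 < δ) : ContDiffBump (0 : ℝ) where
  rIn := δ / 4
  rOut := δ / 2
  rIn_pos := by positivity
  rIn_lt_rOut := by linarith

/-- convolution with a kernel -/
noncomputable def cv (ψ s : ℝ → ℝ) : ℝ → ℝ := ψ ⋆[ContinuousLinearMap.lsmul ℝ ℝ, volume] s

theorem cv_apply (ψ s : ℝ → ℝ) (x : ℝ) : cv ψ s x = ∫ t, ψ t * s (x - t) := by
  unfold cv convolution
  simp

theorem abs_cv_le {ψ s : ℝ → ℝ} (hψ : Integrable ψ) (hs : ∀ x, |s x| ≤ B) (x : ℝ) :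
    |cv ψ s x| ≤ ∫ t, |ψ t| * B := by
  rw [cv_apply]
  refine (abs_integral_le_integral_abs).trans ?_
  refine integral_mono_of_nonneg (ae_of_all _ fun t => abs_nonneg _) (hψ.abs.mul_const B)
    (ae_of_all _ fun t => ?_)
  simp only
  rw [abs_mul]
  exact mul_le_mul_of_nonneg_left (hs _) (abs_nonneg _)

theorem cv_deriv {ψ s : ℝ → ℝ} (h1 : HasCompactSupport ψ) (h2 : ContDiff ℝ 1 ψ)
    (hs : LocallyIntegrable s volume) (x : ℝ) : HasDerivAt (cv ψ s) (cv (deriv ψ) s x) x :=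
  h1.hasDerivAt_convolution_left _ h2 hs x

theorem exists_above_delta (hB : ∀ x, |f x| ≤ B) {δ : ℝ} (hδ : 0 < δ) :
    ∃ (g g1 g2 g3 : ℝ → ℝ) (D : ℝ), C3b g g1 g2 g3 D ∧ (∀ x, |g x| ≤ B) ∧ (∀ x, f x ≤ g x) ∧
      ∀ x c, (∀ y, |y - x| < 2 * δ → f y ≤ c) → g x ≤ c := by
  set φ := bmp δ hδ with hφ
  set ρ : ℝ → ℝ := φ.normed volume with hρ
  have r0 : ContDiff ℝ ∞ ρ := φ.contDiff_normed
  have k0 : HasCompactSupport ρ := φ.hasCompactSupport_normed
  have dinf : ∀ {ψ : ℝ → ℝ}, ContDiff ℝ ∞ ψ → ContDiff ℝ ∞ (deriv ψ) := fun h =>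
    (contDiff_infty_iff_deriv.1 h).2
  have r1 := dinf r0
  have r2 := dinf r1
  have r3 := dinf r2
  have k1 := k0.deriv
  have k2 := k1.deriv
  have k3 := k2.deriv
  have one : ∀ {ψ : ℝ → ℝ}, ContDiff ℝ ∞ ψ → ContDiff ℝ 1 ψ := fun h => h.of_le (by exact_mod_cast le_top)
  have int : ∀ {ψ : ℝ → ℝ}, ContDiff ℝ ∞ ψ → HasCompactSupport ψ → Integrable ψ := fun h h' =>
    h.continuous.integrable_of_hasCompactSupport h'
  set s := sup1 f δ with hs
  have sm : Measurable s := measurable_sup1 hB hδ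
  have sB : ∀ x, |s x| ≤ B := abs_sup1_le hB hδ
  have sl : LocallyIntegrable s volume := by
    refine (locallyIntegrable_const B).mono sm.aestronglyMeasurable (ae_of_all _ fun x => ?_)
    rw [Real.norm_eq_abs, Real.norm_eq_abs]
    exact (sB x).trans (le_abs_self B)
  have hnn : ∀ t, 0 ≤ ρ t := fun t => φ.nonneg_normed t
  have hint : ∫ t, ρ t = 1 := φ.integral_normed
  have hsupp : ∀ t, ρ t ≠ 0 → |t| < δ / 2 := by
    intro t ht
    have h1 : t ∈ Function.support ρ := ht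
    rw [hρ, φ.support_normed_eq] at h1
    rw [Metric.mem_ball, Real.dist_eq, sub_zero] at h1
    exact h1
  have hprod : ∀ x, Integrable fun t => ρ t * s (x - t) := by
    intro x
    refine Integrable.mono' ((int r0 k0).abs.mul_const B)
      ((r0.continuous.measurable.mul (sm.comp (measurable_const.sub measurable_id))).aestronglyMeasurable)
      (ae_of_all _ fun t => ?_)
    rw [Real.norm_eq_abs, abs_mul]
    exact mul_le_mul_of_nonneg_left (sB _) (abs_nonneg _)
  -- comparison principle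
  have cmp_le : ∀ x c, (∀ t, |t| < δ / 2 → s (x - t) ≤ c) → cv ρ s x ≤ c := by
    intro x c h
    rw [cv_apply]
    calc ∫ t, ρ t * s (x - t) ≤ ∫ t, ρ t * c := by
          refine integral_mono (hprod x) ((int r0 k0).mul_const c) fun t => ?_
          simp only
          by_cases ht : ρ t = 0
          · rw [ht]; simp
          · exact mul_le_mul_of_nonneg_left (h t (hsupp t ht)) (hnn t)
      _ = c := by rw [integral_mul_const, hint, one_mul]
  have cmp_ge : ∀ x c, (∀ t, |t| < δ / 2 → c ≤ s (x - t)) → c ≤ cv ρ s x := by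
    intro x c h
    rw [cv_apply]
    calc c = ∫ t, ρ t * c := by rw [integral_mul_const, hint, one_mul]
      _ ≤ ∫ t, ρ t * s (x - t) := by
          refine integral_mono ((int r0 k0).mul_const c) (hprod x) fun t => ?_
          simp only
          by_cases ht : ρ t = 0
          · rw [ht]; simp
          · exact mul_le_mul_of_nonneg_left (h t (hsupp t ht)) (hnn t)
  set D1 := ∫ t, |deriv ρ t| * B with hD1
  set D2 := ∫ t, |deriv (deriv ρ) t| * B with hD2
  set D3 := ∫ t, |deriv (deriv (deriv ρ)) t| * B with hD3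
  refine ⟨cv ρ s, cv (deriv ρ) s, cv (deriv (deriv ρ)) s, cv (deriv (deriv (deriv ρ))) s,
    max D1 (max D2 D3), ⟨fun x => cv_deriv k0 (one r0) sl x, fun x => cv_deriv k1 (one r1) sl x,
    fun x => cv_deriv k2 (one r2) sl x,
    fun x => (abs_cv_le (int r1 k1) sB x).trans (le_max_left _ _),
    fun x => (abs_cv_le (int r2 k2) sB x).trans ((le_max_left _ _).trans (le_max_right _ _)),
    fun x => (abs_cv_le (int r3 k3) sB x).trans ((le_max_right _ _).trans (le_max_right _ _))⟩,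
    fun x => ?_, fun x => ?_, fun x c h => ?_⟩
  · rw [abs_le]
    exact ⟨cmp_ge x _ fun t _ => (abs_le.1 (sB _)).1, cmp_le x _ fun t _ => (abs_le.1 (sB _)).2⟩
  · refine cmp_ge x _ fun t ht => ?_
    refine le_sup1 hB ?_
    have : x - (x - t) = t := by ring
    rw [this]; linarith
  · refine cmp_le x _ fun t ht => ?_
    refine sup1_le hδ fun y hy => h y ?_
    have e : y - x = (y - (x - t)) + (-t) := by ring
    rw [e]
    calc |(y - (x - t)) + (-t)| ≤ |y - (x - t)| + |-t| := abs_add_le _ _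
      _ < δ + δ / 2 := by rw [abs_neg]; linarith
      _ ≤ 2 * δ := by linarith

/-- smooth approximation from above -/
theorem exists_above (hf : Measurable f) (hB : ∀ x, |f x| ≤ B)
    (hc : ∀ᵐ x ∂(volume : Measure ℝ), ContinuousAt f x) {ε : ℝ} (hε : 0 < ε) :
    ∃ (g g1 g2 g3 : ℝ → ℝ) (D : ℝ), C3b g g1 g2 g3 D ∧ (∀ x, |g x| ≤ B) ∧ (∀ x, f x ≤ g x) ∧
      ∫ x, (g x - f x) ∂(gaussianReal 0 1) ≤ ε := by
  have hδ : ∀ n : ℕ, 0 < 1 / ((n : ℝ) + 1) := fun n => by positivity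
  choose g g1 g2 g3 D h1 h2 h3 h4 using fun n : ℕ => exists_above_delta (f := f) hB (hδ n)
  have hgm : ∀ n, Measurable (g n) := fun n =>
    (continuous_iff_continuousAt.2 fun x => ((h1 n).d1 x).continuousAt).measurable
  have hae : ∀ᵐ x ∂(gaussianReal 0 1), ContinuousAt f x :=
    (gaussianReal_absolutelyContinuous 0 (by norm_num)).ae_le hc
  have hlim : Tendsto (fun n => ∫ x, (g n x - f x) ∂(gaussianReal 0 1)) atTop
      (𝓝 (∫ x, (0 : ℝ) ∂(gaussianReal 0 1))) := by
    refine tendsto_integral_of_dominated_convergence (fun _ => 2 * B)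
      (fun n => ((hgm n).sub hf).aestronglyMeasurable) (integrable_const _)
      (fun n => ae_of_all _ fun x => ?_) ?_
    · rw [Real.norm_eq_abs]
      calc |g n x - f x| ≤ |g n x| + |f x| := abs_sub _ _
        _ ≤ B + B := add_le_add (h2 n x) (hB x)
        _ = 2 * B := by ring
    · filter_upwards [hae] with x hx
      rw [Metric.tendsto_atTop]
      intro η hη
      obtain ⟨r, hr, hr'⟩ := Metric.continuousAt_iff.1 hx (η / 2) (by positivity)
      obtain ⟨n0, hn0⟩ := exists_nat_one_div_lt (show 0 < r / 2 by positivity)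
      refine ⟨n0, fun n hn => ?_⟩
      have hsmall : 1 / ((n : ℝ) + 1) < r / 2 := by
        refine lt_of_le_of_lt ?_ hn0
        have : (n0 : ℝ) ≤ n := by exact_mod_cast hn
        exact one_div_le_one_div_of_le (by positivity) (by linarith)
      have hle : g n x ≤ f x + η / 2 := by
        refine h4 n x _ fun y hy => ?_
        have h5 : dist y x < r := by rw [Real.dist_eq]; linarith
        have h6 := hr' h5
        rw [Real.dist_eq] at h6
        have := (abs_lt.1 h6).2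
        linarith
      rw [Real.dist_eq, sub_zero, abs_of_nonneg (sub_nonneg.2 (h3 n x))]
      linarith
  rw [integral_zero] at hlim
  obtain ⟨n, hn⟩ := (hlim.eventually (ge_mem_nhds hε)).exists
  exact ⟨g n, g1 n, g2 n, g3 n, D n, h1 n, h2 n, h3 n, hn⟩

theorem C3b.neg {g g1 g2 g3 : ℝ → ℝ} {D : ℝ} (h : C3b g g1 g2 g3 D) :
    C3b (fun x => -g x) (fun x => -g1 x) (fun x => -g2 x) (fun x => -g3 x) D :=
  ⟨fun x => (h.d1 x).neg, fun x => (h.d2 x).neg, fun x => (h.d3 x).neg,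
    fun x => by rw [abs_neg]; exact h.b1 x, fun x => by rw [abs_neg]; exact h.b2 x,
    fun x => by rw [abs_neg]; exact h.b3 x⟩

/-- smooth approximation from below -/
theorem exists_below (hf : Measurable f) (hB : ∀ x, |f x| ≤ B)
    (hc : ∀ᵐ x ∂(volume : Measure ℝ), ContinuousAt f x) {ε : ℝ} (hε : 0 < ε) :
    ∃ (g g1 g2 g3 : ℝ → ℝ) (D : ℝ), C3b g g1 g2 g3 D ∧ (∀ x, |g x| ≤ B) ∧ (∀ x, g x ≤ f x) ∧
      ∫ x, (f x - g x) ∂(gaussianReal 0 1) ≤ ε := by
  obtain ⟨g, g1, g2, g3, D, h1, h2, h3, h4⟩ := exists_above (f := fun x => -f x) hf.neg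
    (fun x => by rw [abs_neg]; exact hB x) (hc.mono fun x hx => hx.neg) hε
  refine ⟨_, _, _, _, D, h1.neg, fun x => by rw [abs_neg]; exact h2 x, fun x => ?_, ?_⟩
  · have := h3 x; linarith
  · refine le_trans (le_of_eq (integral_congr_ae (ae_of_all _ fun x => ?_))) h4
    simp only
    ring

end Vale.Agent.P157.H770
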