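import Vale.Agent.P157.H770.Conc
import Vale.Agent.P157.H770.Lind
import Vale.Agent.P157.H770.Tay
import Vale.Agent.P157.Bdl.B15

/-!
# Universality of the pressure on the cube
-/

set_option linter.all false

open MeasureTheory ProbabilityTheory Filter Topology

namespace Vale.Agent.P157.H770

theorem gauss_sq : Integrable (fun t : ℝ => t ^ 2) (gaussianReal 0 1) := by
  have h := (memLp_id_gaussianReal (μ := 0) (v := 1) 2).integrable_sq
  simpa using h

theorem gauss_mean : ∫ t, t ∂(gaussianReal 0 1) = 0 := by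
  simpa using (integral_id_gaussianReal (μ := 0) (v := 1))

theorem gauss_var : ∫ t, t ^ 2 ∂(gaussianReal 0 1) = 1 := by
  have h1 := variance_id_gaussianReal (μ := 0) (v := 1)
  rw [variance_eq_sub (memLp_id_gaussianReal 2)] at h1
  simp only [Pi.pow_apply, id_eq] at h1
  rw [gauss_mean] at h1
  simpa using h1

section swap

variable {M N : ℕ}

/-- the pressure as a function of one entry -/
theorem pressure_entry (hN : 0 < N) {f : ℝ → ℝ} (g : Fin M → Fin N → ℝ) (a : Fin M) (i : Fin N)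
    (t : ℝ) :
    pressure (cube N) f (Function.update g a (Function.update (g a) i t)) =
      1 / N * Real.log (∑ σ : Fin N → Bool,
        ((1 / 2 : ℝ) ^ N * Real.exp (∑ b ∈ Finset.univ.erase a,
          f ((∑ j, g b j * spin σ j) / √(N : ℝ)))) *
        Real.exp (f ((∑ j ∈ Finset.univ.erase i, g a j * spin σ j) / √(N : ℝ) +
          t * (spin σ i / √(N : ℝ))))) := by
  rw [pressure_eq, integral_cube, Finset.mul_sum]
  congr 2
  refine Finset.sum_congr rfl fun σ _ => ?_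
  rw [mul_assoc, ← Real.exp_add]
  congr 2
  unfold HH
  rw [← Finset.sum_erase_add _ _ (Finset.mem_univ a)]
  congr 1
  · refine Finset.sum_congr rfl fun b hb => ?_
    rw [Function.update_of_ne (Finset.ne_of_mem_erase hb)]
  · rw [Function.update_self, ← Finset.sum_erase_add _ _ (Finset.mem_univ i),
      Function.update_self, add_div, mul_div_assoc]
    congr 3
    refine Finset.sum_congr rfl fun j hj => ?_
    rw [Function.update_of_ne (Finset.ne_of_mem_erase hj)]

/-- remainder of one swap -/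
noncomputable def rem (N : ℕ) (ν : Measure ℝ) : ℝ :=
  ∫ t, min ((1 / √(N : ℝ)) ^ 2 * t ^ 2) ((1 / √(N : ℝ)) ^ 3 * |t| ^ 3) ∂ν

theorem entry_swap (hN : 0 < N) {f f1 f2 f3 : ℝ → ℝ} {D B : ℝ}
    (hf : C3b f f1 f2 f3 D) (hB : ∀ x, |f x| ≤ B) (ν γ : Measure ℝ) [IsProbabilityMeasure ν]
    [IsProbabilityMeasure γ] (iν : Integrable (fun t => t ^ 2) ν)
    (iγ : Integrable (fun t => t ^ 2) γ) (m1 : ∫ t, t ∂ν = ∫ t, t ∂γ)
    (m2 : ∫ t, t ^ 2 ∂ν = ∫ t, t ^ 2 ∂γ) (g : Fin M → Fin N → ℝ) (a : Fin M) (i : Fin N) :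
    |∫ t, pressure (cube N) f (Function.update g a (Function.update (g a) i t)) ∂ν -
      ∫ t, pressure (cube N) f (Function.update g a (Function.update (g a) i t)) ∂γ| ≤
      1 / N * (QQ D * (rem N ν + rem N γ)) := by
  have hN' : (0 : ℝ) < N := by exact_mod_cast hN
  simp only [pressure_entry hN g a i]
  rw [integral_const_mul, integral_const_mul, ← mul_sub, abs_mul,
    abs_of_nonneg (by positivity : (0 : ℝ) ≤ 1 / N)]
  refine mul_le_mul_of_nonneg_left ?_ (by positivity)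
  refine swap_le (X := Fin N → Bool) hf hB
    (w := fun σ => (1 / 2 : ℝ) ^ N * Real.exp (∑ b ∈ Finset.univ.erase a,
          f ((∑ j, g b j * spin σ j) / √(N : ℝ))))
    (u := fun σ => (∑ j ∈ Finset.univ.erase i, g a j * spin σ j) / √(N : ℝ))
    (v := fun σ => spin σ i / √(N : ℝ)) (fun σ => by positivity) (c := 1 / √(N : ℝ))
    (fun σ => ?_) ν γ iν iγ m1 m2
  rw [abs_div, abs_of_nonneg (Real.sqrt_nonneg _)]
  refine div_le_div_of_nonneg_right ?_ (Real.sqrt_nonneg _)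
  unfold spin
  split_ifs <;> simp

theorem EP_swap (hN : 0 < N) {f f1 f2 f3 : ℝ → ℝ} {D B : ℝ}
    (hf : C3b f f1 f2 f3 D) (hB : ∀ x, |f x| ≤ B) (ν γ : Measure ℝ) [IsProbabilityMeasure ν]
    [IsProbabilityMeasure γ] (iν : Integrable (fun t => t ^ 2) ν)
    (iγ : Integrable (fun t => t ^ 2) γ) (m1 : ∫ t, t ∂ν = ∫ t, t ∂γ)
    (m2 : ∫ t, t ^ 2 ∂ν = ∫ t, t ^ 2 ∂γ) (M : ℕ) :
    |EP (cube N) ν f M - EP (cube N) γ f M| ≤ M / N * (QQ D * (N * rem N ν + N * rem N γ)) := by
  have hN' : (0 : ℝ) < N := by exact_mod_cast hN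
  have hfm : Measurable f :=
    (continuous_iff_continuousAt.2 fun x => (hf.d1 x).continuousAt).measurable
  have h := lindeberg_array ν γ (fun g : Fin M → Fin N → ℝ => pressure (cube N) f g)
    (measurable_pressure (cube N) hfm) (abs_pressure_le' (cube N) hfm hB)
    (fun g a i => entry_swap hN hf hB ν γ iν iγ m1 m2 g a i)
  refine h.trans (le_of_eq ?_)
  field_simp

end swap

/-- universality for smooth potentials -/
theorem univ_smooth {f f1 f2 f3 : ℝ → ℝ} {D B : ℝ} (hf : C3b f f1 f2 f3 D)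
    (hB : ∀ x, |f x| ≤ B) (ν γ : Measure ℝ) [IsProbabilityMeasure ν] [IsProbabilityMeasure γ]
    (iν : Integrable (fun t => t ^ 2) ν) (iγ : Integrable (fun t => t ^ 2) γ)
    (m1 : ∫ t, t ∂ν = ∫ t, t ∂γ) (m2 : ∫ t, t ^ 2 ∂ν = ∫ t, t ^ 2 ∂γ) {α : ℝ} (hα : 0 ≤ α) :
    Tendsto (fun N : ℕ => EP (cube N) ν f ⌊α * N⌋₊ - EP (cube N) γ f ⌊α * N⌋₊) atTop (𝓝 0) := by
  have hfl : Tendsto (fun N : ℕ => ((⌊α * N⌋₊ : ℕ) : ℝ) / N) atTop (𝓝 α) :=
    (tendsto_nat_floor_mul_div_atTop hα).comp tendsto_natCast_atTop_atTop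
  have h1 := hfl.mul (((tendsto_rem ν iν).add (tendsto_rem γ iγ)).const_mul (QQ D))
  simp only [add_zero, mul_zero] at h1
  refine squeeze_zero_norm' ?_ h1
  filter_upwards [eventually_gt_atTop 0] with N hN
  rw [Real.norm_eq_abs]
  exact EP_swap hN hf hB ν γ iν iγ m1 m2 _

end Vale.Agent.P157.H770
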